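import Crest.Agent.N250.E.PC
import Crest.Agent.N250.Master

/-!
Row 250, block E (helper94): E5, a cylindrical end is a polar graph `r (s, θ) → √2`.
-/

set_option autoImplicit false

open Set Metric Filter
open scoped ContDiff Topology RealInnerProductSpace

noncomputable section

namespace Crest.Agent.N250.EP

open Crest.GeometryTopology.MCF (E gradX)
open Crest.Agent.N221.Ex

variable {b : OrthonormalBasis (Fin 3) ℝ E} {y : E} {S : Set E}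

/-- beyond height `R` the part of `S` within distance `2` of the axis is the polar graph of `r` -/
structure PolarEnd (b : OrthonormalBasis (Fin 3) ℝ E) (S : Set E) (R : ℝ) (r : ℝ × ℝ → ℝ) :
    Prop where
  sm : ContDiffOn ℝ ∞ r {p | R < p.1}
  per : ∀ s θ, r (s, θ + 2 * Real.pi) = r (s, θ)
  mem : ∀ p, R < p.1 → ∀ d ∈ Icc (0 : ℝ) 2, pol b p d ∈ S ↔ d = r p
  rng : ∀ p, R < p.1 → 1 < r p ∧ r p < 2
  lim : ∀ k : ℕ, ∀ ε > 0, ∃ R' : ℝ, ∀ p : ℝ × ℝ, R' ≤ p.1 →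
    ‖iteratedFDeriv ℝ k (fun p => r p - √2) p‖ ≤ ε

theorem PolarEnd.mono {R R' : ℝ} {r : ℝ × ℝ → ℝ} (h : PolarEnd b S R r) (hR : R ≤ R') :
    PolarEnd b S R' r :=
  ⟨h.sm.mono fun _ hp => hR.trans_lt hp, h.per, fun p hp => h.mem p (hR.trans_lt hp),
    fun p hp => h.rng p (hR.trans_lt hp), h.lim⟩

theorem pol_shift (b : OrthonormalBasis (Fin 3) ℝ E) (p : ℝ × ℝ) (d : ℝ) :
    pol b (0, p.2) d + p.1 • b 0 = pol b p d := by
  simp only [pol, zero_smul, zero_add]; abel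

theorem pol_mem_ball (b : OrthonormalBasis (Fin 3) ℝ E) (p : ℝ × ℝ) {d d' η : ℝ} (h : |d - d'| < η) :
    pol b p d ∈ ball (pol b p d') η := by
  rwa [mem_ball_iff_norm, pol_sub, norm_smul, norm_om, mul_one, Real.norm_eq_abs]

/-- a ray meets `S` once, transversally -/
def Ray (b : OrthonormalBasis (Fin 3) ℝ E) (S : Set E) (p : ℝ × ℝ) (d : ℝ) : Prop :=
  1 < d ∧ d < 2 ∧ (∀ d' ∈ Icc (0 : ℝ) 2, pol b p d' ∈ S ↔ d' = d) ∧ ∃ (W : Set E) (ψ : E → ℝ),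
    IsOpen W ∧ pol b p d ∈ W ∧ ContDiffOn ℝ ∞ ψ W ∧ (∀ x ∈ W, x ∈ S ↔ ψ x = 0) ∧
      fderiv ℝ ψ (pol b p d) (om b p.2) ≠ 0

theorem ray_ev (h : CylLim (b 0) S) : ∃ R : ℝ, ∀ p : ℝ × ℝ, R ≤ p.1 → ∃ d, Ray b S p d := by
  by_contra hc
  simp only [not_exists, not_forall] at hc
  choose p hp hn using fun j : ℕ => hc j
  obtain ⟨η, hη0, hη, j, ψ, hj, hU, hψ⟩ := cyl_chart h p hp
  obtain ⟨R, hR⟩ := cyl_near (b.norm_eq_one 0) h 2 (half_pos hη0)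
  obtain ⟨m, hm⟩ := exists_nat_ge R
  set q := p (j m) with hq
  have hRq : R ≤ q.1 := hm.trans (le_trans (by exact_mod_cast hj m) (hp _))
  obtain ⟨h0, h1⟩ := hψ m
  have hb : ∀ d ∈ Icc (√2 - η / 2) (√2 + η / 2), pol b (0, q.2) d ∈ ball (pol b (0, q.2) √2) η :=
    fun d hd => pol_mem_ball b _ (abs_lt.2 ⟨by linarith [hd.1], by linarith [hd.2]⟩)
  have hg : ∀ d ∈ Icc (√2 - η / 2) (√2 + η / 2), HasDerivAt (fun d => ψ m (pol b (0, q.2) d))
      (fderiv ℝ (ψ m) (pol b (0, q.2) d) (om b q.2)) d := fun d hd =>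
    ((hU.at (hb d hd)).differentiableAt (by simp)).hasFDerivAt.comp_hasDerivAt d
      (hasDerivAt_pol b (0, q.2) d)
  have hcg : ContinuousOn (fun d => ψ m (pol b (0, q.2) d)) (Icc (√2 - η / 2) (√2 + η / 2)) :=
    fun d hd => (hg d hd).continuousAt.continuousWithinAt
  have hmon := (convex_Icc (√2 - η / 2) (√2 + η / 2)).mul_sub_le_image_sub_of_le_deriv hcg
    (fun d hd => (hg d (interior_subset hd)).differentiableAt.differentiableWithinAt) (C := 1 / 2)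
    fun d hd => by
      rw [(hg d (interior_subset hd)).deriv]; exact (h1 _ (hb d (interior_subset hd))).2
  have hc0 : √2 ∈ Icc (√2 - η / 2) (√2 + η / 2) := ⟨by linarith, by linarith⟩
  have hle : √2 - η / 2 ≤ √2 + η / 2 := by linarith
  obtain ⟨d, hd, hd0⟩ := intermediate_value_Icc hle hcg (show (0 : ℝ) ∈ _ from ⟨by
    have := hmon _ (left_mem_Icc.2 hle) _ hc0 (by linarith)
    linarith [(abs_le.1 h0).2], by
    have := hmon _ hc0 _ (right_mem_Icc.2 hle) (by linarith)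
    linarith [(abs_le.1 h0).1]⟩)
  simp only at hd0
  refine hn (j m) d ⟨by linarith [hd.1, sqrt2_bds.1], by linarith [hd.2, sqrt2_bds.2],
    fun d' hd' => ⟨fun hS => ?_, fun e => ?_⟩, (fun x => x - q.1 • b 0) ⁻¹' ball (pol b (0, q.2) √2) η,
    fun x => ψ m (x - q.1 • b 0), isOpen_ball.preimage (by fun_prop), ?_,
    (hU.sm m).comp (by fun_prop) (mapsTo_preimage _ _), fun x hx => ?_, ?_⟩
  · have h2 := hR _ hS (by rw [ax_pol]; exact hRq) (by rw [dz_pol, abs_of_nonneg hd'.1]; exact hd'.2)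
    rw [dz_pol, abs_of_nonneg hd'.1, abs_le] at h2
    have h3 : d' ∈ Icc (√2 - η / 2) (√2 + η / 2) := ⟨by linarith [h2.1], by linarith [h2.2]⟩
    have h4 := (h1 _ (hb d' h3)).1.1 (by rw [pol_shift]; exact hS)
    rcases le_total d d' with h5 | h5
    · have := hmon _ hd _ h3 h5
      linarith
    · have := hmon _ h3 _ hd h5
      linarith
  · rw [e, ← pol_shift]
    exact (h1 _ (hb d hd)).1.2 hd0
  · rw [mem_preimage, ← pol_shift b q, add_sub_cancel_right]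
    exact hb d hd
  · rw [← (h1 _ hx).1, sub_add_cancel]
  · rw [← hq, ← pol_shift b q]
    have h2 := ((hU.at (hb d hd)).differentiableAt (by simp)).hasFDerivAt
    have h3 : HasFDerivAt (fun x => ψ m (x - q.1 • b 0)) (fderiv ℝ (ψ m) (pol b (0, q.2) d))
        (pol b (0, q.2) d + q.1 • b 0) := by
      rw [hasFDerivAt_comp_sub, add_sub_cancel_right]; exact h2
    rw [h3.fderiv]
    linarith [(h1 _ (hb d hd)).2]

theorem ray_smooth {R : ℝ} {r : ℝ × ℝ → ℝ} (h : ∀ p : ℝ × ℝ, R < p.1 → Ray b S p (r p)) :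
    ContDiffOn ℝ ∞ r {p | R < p.1} := fun p hp => by
  obtain ⟨h1, h2, -, W, ψ, hW, hx, hψ, hS, hne⟩ := h p hp
  have hψ' := hψ.contDiffAt (hW.mem_nhds hx)
  have hg : ContDiffAt ℝ ∞ (fun q : (ℝ × ℝ) × ℝ => ψ (pol b q.1 q.2)) (p, r p) :=
    ContDiffAt.comp (g := ψ) (p, r p) hψ' (contDiff_pol b).contDiffAt
  obtain ⟨u, hu, hu0, hu1, -⟩ := impl_loc hg (by
    have := (hψ'.differentiableAt (by simp)).hasFDerivAt.comp (p, r p)
      (f := fun q : (ℝ × ℝ) × ℝ => pol b q.1 q.2)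
      ((contDiff_pol b).differentiable (by simp) _).hasFDerivAt
    rw [show (fun q : (ℝ × ℝ) × ℝ => ψ (pol b q.1 q.2)) = ψ ∘ fun q => pol b q.1 q.2 from rfl,
      this.fderiv, ContinuousLinearMap.comp_apply, fderiv_pol]
    exact hne)
  simp only at hu hu0 hu1
  refine (hu.congr_of_eventuallyEq ?_).contDiffWithinAt
  have hc := hu.continuousAt
  have h3 : ContinuousAt (fun x => pol b x (u x)) p :=
    ContinuousAt.comp (g := fun q : (ℝ × ℝ) × ℝ => pol b q.1 q.2) (f := fun x => (x, u x))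
      (contDiff_pol b).continuous.continuousAt (continuousAt_id.prodMk hc)
  have h4 : ψ (pol b p (r p)) = 0 :=
    (hS _ hx).1 (((h p hp).2.2.1 _ ⟨by linarith, h2.le⟩).2 rfl)
  filter_upwards [hu1, h3.preimage_mem_nhds (hW.mem_nhds (by simpa only [hu0] using hx)),
    hc.eventually (lt_mem_nhds (hu0 ▸ h1)), hc.eventually (gt_mem_nhds (hu0 ▸ h2)),
    (isOpen_lt continuous_const continuous_fst).mem_nhds hp] with x a1 a2 a3 a4 a5
  exact (((h x a5).2.2.1 _ ⟨by linarith, a4.le⟩).1 ((hS _ a2).2 (a1.trans h4))).symm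

/-- the polar coordinates, translated along the axis, are uniformly smooth -/
theorem ub_pol {ι : Type} (b : OrthonormalBasis (Fin 3) ℝ E) (s : ι → ℝ) {V : ι → Set ((ℝ × ℝ) × ℝ)}
    (hV : ∀ i, IsOpen (V i)) {M : ℝ} (hb : ∀ i, ∀ q ∈ V i, |q.1.1 - s i| ≤ M ∧ |q.2| ≤ M) :
    UB V fun i q => pol b q.1 q.2 - s i • b 0 := by
  have h1 := ub_affine hV ((ContinuousLinearMap.fst ℝ ℝ ℝ).comp (ContinuousLinearMap.fst ℝ (ℝ × ℝ) ℝ))
    s (M := M) fun i q hq => (hb i q hq).1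
  have h2 := ub_affine hV (ContinuousLinearMap.snd ℝ (ℝ × ℝ) ℝ) (fun _ => 0) (M := M)
    fun i q hq => by simpa using (hb i q hq).2
  have h3 := ub_form hV ((ContinuousLinearMap.snd ℝ ℝ ℝ).comp (ContinuousLinearMap.fst ℝ (ℝ × ℝ) ℝ))
    Real.contDiff_cos Real.abs_iteratedDeriv_cos_le_one
  have h4 := ub_form hV ((ContinuousLinearMap.snd ℝ ℝ ℝ).comp (ContinuousLinearMap.fst ℝ (ℝ × ℝ) ℝ))
    Real.contDiff_sin Real.abs_iteratedDeriv_sin_le_one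
  have h5 := (h3.clm (ContinuousLinearMap.toSpanSingleton ℝ (b 1))).add
    (h4.clm (ContinuousLinearMap.toSpanSingleton ℝ (b 2)))
  have h6 := (h1.clm (ContinuousLinearMap.toSpanSingleton ℝ (b 0))).add
    (UB.bilin (ContinuousLinearMap.lsmul ℝ ℝ : ℝ →L[ℝ] E →L[ℝ] E) h2 h5)
  refine h6.congr fun i q _ => ?_
  simp only [pol, om, ContinuousLinearMap.toSpanSingleton_apply, ContinuousLinearMap.comp_apply,
    ContinuousLinearMap.coe_fst', ContinuousLinearMap.coe_snd', ContinuousLinearMap.lsmul_apply,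
    sub_zero]
  module

theorem ray_lim (h : CylLim (b 0) S) {R : ℝ} {r : ℝ × ℝ → ℝ}
    (hr : ∀ p : ℝ × ℝ, R < p.1 → Ray b S p (r p)) {δ : ℝ} (hδ : 0 < δ) :
    ∃ R' : ℝ, ∀ p : ℝ × ℝ, R' ≤ p.1 → |r p - √2| ≤ δ := by
  obtain ⟨R', hR'⟩ := cyl_near (b.norm_eq_one 0) h 2 hδ
  refine ⟨max R' (R + 1), fun p hp => ?_⟩
  obtain ⟨h1, h2, h3, -⟩ := hr p (by linarith [le_max_right R' (R + 1)])
  have h0 : 0 ≤ r p := by linarith
  have := hR' _ ((h3 _ ⟨h0, h2.le⟩).2 rfl) (by rw [ax_pol]; exact (le_max_left _ _).trans hp)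
    (by rw [dz_pol, abs_of_nonneg h0]; exact h2.le)
  rwa [dz_pol, abs_of_nonneg h0] at this

theorem ray_jets0 (h : CylLim (b 0) S) {R : ℝ} {r : ℝ × ℝ → ℝ}
    (hr : ∀ p : ℝ × ℝ, R < p.1 → Ray b S p (r p)) (k : ℕ) :
    ∃ c R' : ℝ, ∀ p : ℝ × ℝ, R' ≤ p.1 → ‖iteratedFDeriv ℝ k r p‖ ≤ c := by
  by_contra hc
  push Not at hc
  choose p hp hn using fun j : ℕ => hc j j
  obtain ⟨η, hη0, hη, j, ψ, hj, hU, hψ⟩ := cyl_chart h p hp
  obtain ⟨R', hR'⟩ := ray_lim h hr (half_pos hη0)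
  obtain ⟨m0, hm0⟩ := exists_nat_gt (max R R')
  have hq : ∀ m, max R R' < (p (j (m + m0))).1 := fun m =>
    hm0.trans_le (le_trans (by exact_mod_cast le_add_self.trans (hj (m + m0))) (hp _))
  simp only [max_lt_iff] at hq
  let q := fun m => p (j (m + m0))
  let T : ℕ → (ℝ × ℝ) × ℝ → E := fun m w => pol b w.1 w.2 - (q m).1 • b 0
  let V : ℕ → Set ((ℝ × ℝ) × ℝ) := fun m => {w | |w.1.1 - (q m).1| < 2} ∩ {w | |w.2| < 2} ∩
    T m ⁻¹' ball (pol b (0, (q m).2) √2) η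
  have hV : ∀ m, IsOpen (V m) := fun m =>
    ((isOpen_lt (by fun_prop) continuous_const).inter (isOpen_lt (by fun_prop) continuous_const)).inter
      (isOpen_ball.preimage ((contDiff_pol b).continuous.sub continuous_const))
  have hT : UB V T := ub_pol b (fun m => (q m).1) hV (M := 2) fun m w hw => ⟨hw.1.1.le, hw.1.2.le⟩
  have hΨ := UB.comp (hU.mono (fun m => m + m0) (fun _ => isOpen_ball) fun _ => subset_rfl) hT
    fun m w hw => hw.2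
  have e : ∀ m d, T m (q m, d) = pol b (0, (q m).2) d := fun m d => by
    simp only [T]; rw [← pol_shift b (q m), add_sub_cancel_right]
  have hb : ∀ m, pol b (0, (q m).2) (r (q m)) ∈ ball (pol b (0, (q m).2) √2) η := fun m =>
    pol_mem_ball b _ ((hR' _ (hq m).2.le).trans_lt (half_lt_self hη0))
  have hab : ∀ z : ℝ × ℝ, R < z.1 → |r z| < 2 := fun z hz =>
    abs_lt.2 ⟨by linarith [(hr z hz).1], (hr z hz).2.1⟩
  obtain ⟨C, hC⟩ := impl_at hΨ (u := fun _ => r) (O := fun _ => {z | R < z.1}) (x := q)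
    (fun _ => isOpen_lt continuous_const continuous_fst) (fun _ => ray_smooth hr) (fun m => (hq m).1)
    (fun m => ⟨⟨by simp, hab _ (hq m).1⟩, by rw [mem_preimage, e]; exact hb m⟩)
    (fun m z hz hw => ((hψ (m + m0)).2 _ hw.2).1.1 (by
      simp only [T, q, sub_add_cancel]
      exact ((hr z hz).2.2.1 _ ⟨by linarith [(hr z hz).1], (hr z hz).2.1.le⟩).2 rfl))
    (c := 1 / 2) (by norm_num) (fun m => by
      have h1 : HasFDerivAt (ψ (m + m0)) _ (T m (q m, r (q m))) :=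
        e m _ ▸ ((hU.at (i := m + m0) (hb m)).differentiableAt (by simp)).hasFDerivAt
      have h2 : HasFDerivAt (T m) _ (q m, r (q m)) :=
        ((contDiff_pol b).differentiable (by simp) _).hasFDerivAt.sub_const _
      rw [show (fun w => ψ (m + m0) (T m w)) = ψ (m + m0) ∘ T m from rfl, (h1.comp _ h2).fderiv,
        ContinuousLinearMap.comp_apply, fderiv_pol, e]
      exact ((hψ (m + m0)).2 _ (hb m)).2.trans (le_abs_self _))
    (M := 2) (fun m => (hab _ (hq m).1).le) k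
  obtain ⟨m, hm⟩ := exists_nat_ge C
  have h1 : (m : ℝ) ≤ j (m + m0) := by exact_mod_cast le_self_add.trans (hj (m + m0))
  linarith [hC m, hn (j (m + m0))]

theorem ray_jets (h : CylLim (b 0) S) {R : ℝ} {r : ℝ × ℝ → ℝ}
    (hr : ∀ p : ℝ × ℝ, R < p.1 → Ray b S p (r p)) (k : ℕ) :
    ∃ c R' : ℝ, ∀ p : ℝ × ℝ, R' ≤ p.1 → ‖iteratedFDeriv ℝ k (fun p => r p - √2) p‖ ≤ c := by
  obtain ⟨c, R', hc⟩ := ray_jets0 h hr k
  refine ⟨c + 2, max R' (R + 1), fun p hp => ?_⟩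
  have h1 : ContDiffAt ℝ ∞ r p := (ray_smooth hr).contDiffAt
    ((isOpen_lt continuous_const continuous_fst).mem_nhds
      (show R < p.1 by linarith [le_max_right R' (R + 1)]))
  rw [fun_iteratedFDeriv_sub_apply (h1.of_le (le_infty k)) contDiffAt_const]
  have h2 : ‖iteratedFDeriv ℝ k (fun _ : ℝ × ℝ => (√2 : ℝ)) p‖ ≤ 2 := by
    rcases eq_or_ne k 0 with rfl | hk
    · rw [norm_iteratedFDeriv_zero, Real.norm_eq_abs, abs_of_nonneg (Real.sqrt_nonneg _)]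
      linarith [sqrt2_bds.2]
    · rw [iteratedFDeriv_const_of_ne hk]; simp
  exact (norm_sub_le _ _).trans (add_le_add (hc p ((le_max_left _ _).trans hp)) h2)

/-- **E5** -/
theorem polar (h : CylLim (b 0) S) : ∃ R r, PolarEnd b S R r := by
  classical
  obtain ⟨R, hR⟩ := ray_ev h
  choose! r0 hr0 using hR
  let r : ℝ × ℝ → ℝ := fun p => if R < p.1 then r0 p else 0
  have hr : ∀ p : ℝ × ℝ, R < p.1 → Ray b S p (r p) := fun p hp => by
    simp only [r, if_pos hp]; exact hr0 p hp.le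
  have hsm := ray_smooth hr
  refine ⟨R, r, hsm, fun s θ => ?_, fun p hp => (hr p hp).2.2.1, fun p hp => ⟨(hr p hp).1, (hr p hp).2.1⟩,
    fun k ε hε => ?_⟩
  · by_cases hs : R < s
    · obtain ⟨h1, h2, h3, -⟩ := hr (s, θ + 2 * Real.pi) hs
      have h4 := (h3 _ ⟨by linarith, h2.le⟩).2 rfl
      rw [pol, om_periodic] at h4
      exact ((hr (s, θ) hs).2.2.1 _ ⟨by linarith, h2.le⟩).1 h4
    · simp only [r, if_neg hs]
  · obtain ⟨R', hR'⟩ := jets_small (f := fun _ : Unit => fun p => r p - √2) (s := fun _ p => p.1) (R := R)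
      (fun _ x z => by
        have := (le_abs_self _).trans (norm_fst_le (x - z))
        rw [Prod.fst_sub] at this
        linarith)
      (fun _ x hx => (hsm.contDiffAt
        ((isOpen_lt continuous_const continuous_fst).mem_nhds hx)).sub contDiffAt_const)
      (fun k => by
        obtain ⟨c, R', hc⟩ := ray_jets h hr k
        exact ⟨c, R', fun _ => hc⟩)
      (fun δ hδ => by
        obtain ⟨R', hc⟩ := ray_lim h hr hδ
        exact ⟨R', fun _ => hc⟩) k ε hε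
    exact ⟨R', hR' ()⟩

/-! ### the form used in `Ends` -/

/-- the orthonormal basis `Q (ee i)` -/
def bQ (Q : E ≃ₗᵢ[ℝ] E) : OrthonormalBasis (Fin 3) ℝ E := (EuclideanSpace.basisFun (Fin 3) ℝ).map Q

theorem bQ_apply (Q : E ≃ₗᵢ[ℝ] E) (i : Fin 3) : bQ Q i = Q (ee i) := by simp [bQ]

theorem pol_bQ (Q : E ≃ₗᵢ[ℝ] E) (s θ d : ℝ) : pol (bQ Q) (s, θ) d = Q (cylP s d θ) := by
  simp only [pol, om, bQ_apply, ← map_smul, ← map_add]
  congr 1
  ext i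
  fin_cases i <;> simp [cylP]

theorem ax_Q (Q : E ≃ₗᵢ[ℝ] E) (x : E) : ⟪Q (ee 0), Q x⟫ = x 0 := by
  rw [Q.inner_map_map]; simp [EuclideanSpace.inner_single_left]

theorem dz_Q (Q : E ≃ₗᵢ[ℝ] E) (x : E) : dz (Q (ee 0)) (Q x) = √(x 1 ^ 2 + x 2 ^ 2) := by
  rw [dz, ax_Q, ← map_smul, ← map_sub, Q.norm_map, EuclideanSpace.norm_eq, Fin.sum_univ_three]
  simp

/-- membership in the rotated cone -/
theorem mem_cone0 (Q : E ≃ₗᵢ[ℝ] E) (ε : ℝ) (x : E) :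
    Q.symm x ∈ cone0 ε ↔ dz (Q (ee 0)) x ≤ ε * ⟪Q (ee 0), x⟫ := by
  conv_rhs => rw [← Q.apply_symm_apply x, dz_Q, ax_Q]
  rfl

theorem exists_Q (hy : ‖y‖ = 1) : ∃ Q : E ≃ₗᵢ[ℝ] E, Q (ee 0) = y :=
  ⟨_, Submodule.reflection_sub (by simp [hy])⟩

/-- the field `tube` of `Ends` from the polar graph and the clean cone -/
theorem PolarEnd.tube {Q : E ≃ₗᵢ[ℝ] E} {R ε : ℝ} {r : ℝ × ℝ → ℝ} (h : PolarEnd (bQ Q) S R r)
    (hc : ∀ x ∈ S, R < ⟪Q (ee 0), x⟫ → dz (Q (ee 0)) x ≤ ε * ⟪Q (ee 0), x⟫ → dz (Q (ee 0)) x ≤ 2)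
    (x : E) (hx : x ∈ cone0 ε) (hR : R < x 0) :
    Q x ∈ S ↔ ∃ θ, x = cylP (x 0) (r (x 0, θ)) θ := by
  constructor
  · intro hS
    obtain ⟨θ, hθ⟩ := exists_pol (bQ Q) (Q x)
    rw [bQ_apply, ax_Q] at hθ
    have h1 := hc _ hS (by rwa [ax_Q]) ((mem_cone0 Q ε _).1 (by rwa [Q.symm_apply_apply]))
    have h2 := (h.mem (x 0, θ) hR _ ⟨dz_nonneg _ _, h1⟩).1 (hθ ▸ hS)
    rw [h2, pol_bQ] at hθ
    exact ⟨θ, Q.injective hθ⟩
  · rintro ⟨θ, hθ⟩
    have h1 := h.rng (x 0, θ) hR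
    rw [hθ, ← pol_bQ]
    exact (h.mem (x 0, θ) hR _ ⟨by linarith [h1.1], h1.2.le⟩).2 rfl

/-- **E5** in the form of `Ends` (fields `sm`, `per`, `near`, `lim`, `tube`), for every larger `R`
and every clean cone -/
theorem polar_ends (Q : E ≃ₗᵢ[ℝ] E) (h : CylLim (Q (ee 0)) S) : ∃ (R₀ : ℝ) (r : ℝ × ℝ → ℝ),
    (∀ s θ, r (s, θ + 2 * Real.pi) = r (s, θ)) ∧
    (∀ (k : ℕ) (δ : ℝ), 0 < δ → ∃ s₀ : ℝ, ∀ q : ℝ × ℝ, s₀ < q.1 →
      ‖iteratedFDeriv ℝ k (fun q => r q - √2) q‖ ≤ δ) ∧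
    ∀ R, R₀ ≤ R → ContDiffOn ℝ ∞ r {q | R < q.1} ∧ (∀ q : ℝ × ℝ, R < q.1 → 1 < r q ∧ r q < 2) ∧
      ∀ ε, (∀ x ∈ S, R < ⟪Q (ee 0), x⟫ → dz (Q (ee 0)) x ≤ ε * ⟪Q (ee 0), x⟫ →
        dz (Q (ee 0)) x ≤ 2) → ∀ x, x ∈ cone0 ε → R < x 0 →
          (Q x ∈ S ↔ ∃ θ, x = cylP (x 0) (r (x 0, θ)) θ) := by
  obtain ⟨R₀, r, hr⟩ := polar (b := bQ Q) (S := S) (by rwa [bQ_apply])
  refine ⟨R₀, r, hr.per, fun k δ hδ => ?_, fun R hR =>
    ⟨(hr.mono hR).sm, (hr.mono hR).rng, fun ε hc => (hr.mono hR).tube hc⟩⟩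
  obtain ⟨R', hR'⟩ := hr.lim k δ hδ
  exact ⟨R', fun q hq => hR' q hq.le⟩

/-- far out, the cylinder is approximated by `S` (radial form) -/
theorem cyl_approx (hy : ‖y‖ = 1) (h : CylLim y S) {δ : ℝ} (hδ : 0 < δ) :
    ∃ R : ℝ, ∀ z, R ≤ ⟪y, z⟫ → ∃ x ∈ S, ⟪y, x⟫ = ⟪y, z⟫ ∧ ‖x - z‖ ≤ |dz y z - √2| + δ := by
  obtain ⟨Q, rfl⟩ := exists_Q hy
  rw [← bQ_apply] at h ⊢
  obtain ⟨R₀, r, hr⟩ := polar h
  obtain ⟨R', hR'⟩ := hr.lim 0 δ hδ
  refine ⟨max R' (R₀ + 1), fun z hz => ?_⟩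
  obtain ⟨θ, hθ⟩ := exists_pol (bQ Q) z
  have h0 : R₀ < ⟪bQ Q 0, z⟫ := by linarith [le_max_right R' (R₀ + 1)]
  have h1 := hr.rng (_, θ) h0
  refine ⟨_, (hr.mem (_, θ) h0 _ ⟨by linarith [h1.1], h1.2.le⟩).2 rfl, ax_pol .., ?_⟩
  have h2 := hR' (_, θ) ((le_max_left _ _).trans hz)
  rw [norm_iteratedFDeriv_zero, Real.norm_eq_abs] at h2
  have h3 := pol_sub (bQ Q) (⟪bQ Q 0, z⟫, θ) (r (⟪bQ Q 0, z⟫, θ)) (dz (bQ Q 0) z)
  rw [← hθ] at h3
  rw [h3, norm_smul, norm_om, mul_one, Real.norm_eq_abs]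
  have := abs_sub_le (r (⟪bQ Q 0, z⟫, θ)) √2 (dz (bQ Q 0) z)
  rw [abs_sub_comm √2] at this
  linarith

end Crest.Agent.N250.EP
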