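import Crest.Agent.R086.BFlow

/-!
Row 250, block E (helper85): the support function equation `h'' + h = 2 / h` of shrinking curves.
-/

set_option autoImplicit false

open Set Filter Topology Real

noncomputable section

namespace Crest.Agent.N250.Ode

/-- Sturm, `q > 1`: a zero in every interval of length `π` -/
lemma sturm1' {u v q : ℝ → ℝ} (hu : ∀ t, HasDerivAt u (v t) t)
    (hv : ∀ t, HasDerivAt v (-(q t * u t)) t) (hq : ∀ t, 1 < q t) (a : ℝ)
    (h : ∀ t ∈ Ioo a (a + π), 0 < u t) : False := by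
  have cu : Continuous u := continuous_iff_continuousAt.2 fun t => (hu t).continuousAt
  have d : ∀ t, HasDerivAt (fun t => v t * sin (t - a) - u t * cos (t - a))
      ((1 - q t) * u t * sin (t - a)) t := fun t => by
    have := ((hv t).mul ((hasDerivAt_id t).sub_const a).sin).sub
      ((hu t).mul ((hasDerivAt_id t).sub_const a).cos)
    refine this.congr_deriv ?_
    simp only [id]
    ring
  have c : ∀ t ∈ Icc a (a + π), 0 ≤ u t := fun t ht => by
    rw [← closure_Ioo (by linarith [pi_pos])] at ht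
    exact le_on_closure (f := fun _ => 0) (fun t ht => (h t ht).le) continuousOn_const
      cu.continuousOn ht
  have m := strictAntiOn_of_deriv_neg (convex_Icc a (a + π))
    (continuous_iff_continuousAt.2 fun t => (d t).continuousAt).continuousOn (fun t ht => by
      rw [interior_Icc] at ht
      rw [(d t).deriv]
      exact mul_neg_of_neg_of_pos (mul_neg_of_neg_of_pos (by linarith [hq t]) (h t ht))
        (sin_pos_of_pos_of_lt_pi (by linarith [ht.1]) (by linarith [ht.2])))
    (left_mem_Icc.2 (by linarith [pi_pos])) (right_mem_Icc.2 (by linarith [pi_pos]))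
    (by linarith [pi_pos])
  simp only [add_sub_cancel_left, sin_pi, cos_pi, sub_self, sin_zero, cos_zero] at m
  linarith [c a (left_mem_Icc.2 (by linarith [pi_pos])),
    c (a + π) (right_mem_Icc.2 (by linarith [pi_pos]))]

/-- a continuous function without zeros on an interval has one sign -/
lemma one_sign {u : ℝ → ℝ} (cu : Continuous u) {a b : ℝ} (h : ∀ t ∈ Ioo a b, u t ≠ 0) :
    (∀ t ∈ Ioo a b, 0 < u t) ∨ ∀ t ∈ Ioo a b, u t < 0 := by
  by_contra hn
  push Not at hn
  obtain ⟨⟨s, hs, h1⟩, t, ht, h2⟩ := hn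
  obtain ⟨x, hx, e⟩ := isPreconnected_Ioo.intermediate_value hs ht cu.continuousOn ⟨h1, h2⟩
  exact h x hx e

lemma sturm1 {u v q : ℝ → ℝ} (hu : ∀ t, HasDerivAt u (v t) t)
    (hv : ∀ t, HasDerivAt v (-(q t * u t)) t) (hq : ∀ t, 1 < q t) (a : ℝ) :
    ∃ t ∈ Ioo a (a + π), u t = 0 := by
  by_contra hn
  push Not at hn
  rcases one_sign (continuous_iff_continuousAt.2 fun t => (hu t).continuousAt) hn with h | h
  · exact sturm1' hu hv hq a h
  · exact sturm1' (u := fun t => -u t) (v := fun t => -v t) (fun t => (hu t).neg)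
      (fun t => (hv t).neg.congr_deriv (by ring)) hq a fun t ht => neg_pos.2 (h t ht)

/-- Sturm, `q < 4`: consecutive zeros are more than `π / 2` apart -/
lemma sturm2' {u v q : ℝ → ℝ} (hu : ∀ t, HasDerivAt u (v t) t)
    (hv : ∀ t, HasDerivAt v (-(q t * u t)) t) (hq : ∀ t, q t < 4) {a b : ℝ} (hab : a < b)
    (hb : b ≤ a + π / 2) (ha0 : u a = 0) (hb0 : u b = 0) (h : ∀ t ∈ Ioo a b, 0 < u t) : False := by
  have d : ∀ t, HasDerivAt (fun t => v t * sin (2 * (t - a)) - 2 * (u t * cos (2 * (t - a))))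
      ((4 - q t) * u t * sin (2 * (t - a))) t := fun t => by
    have := ((hv t).mul (((hasDerivAt_id t).sub_const a).const_mul 2).sin).sub
      (((hu t).mul (((hasDerivAt_id t).sub_const a).const_mul 2).cos).const_mul 2)
    refine this.congr_deriv ?_
    simp only [id]
    ring
  have m := strictMonoOn_of_deriv_pos (convex_Icc a b)
    (continuous_iff_continuousAt.2 fun t => (d t).continuousAt).continuousOn (fun t ht => by
      rw [interior_Icc] at ht
      rw [(d t).deriv]
      exact mul_pos (mul_pos (by linarith [hq t]) (h t ht))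
        (sin_pos_of_pos_of_lt_pi (by linarith [ht.1]) (by linarith [ht.2])))
    (left_mem_Icc.2 hab.le) (right_mem_Icc.2 hab.le) hab
  simp only [sub_self, mul_zero, sin_zero, ha0, hb0, zero_mul] at m
  have s : 0 ≤ sin (2 * (b - a)) := sin_nonneg_of_nonneg_of_le_pi (by linarith) (by linarith)
  have l : v b ≤ 0 := by
    have t1 := (hasDerivAt_iff_tendsto_slope_left_right.1 (hu b)).1
    refine le_of_tendsto t1 ?_
    filter_upwards [Ioo_mem_nhdsLT hab] with t ht
    rw [slope_def_field, hb0, sub_zero]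
    exact div_nonpos_of_nonneg_of_nonpos (h t ht).le (by linarith [ht.2])
  nlinarith

lemma sturm2 {u v q : ℝ → ℝ} (hu : ∀ t, HasDerivAt u (v t) t)
    (hv : ∀ t, HasDerivAt v (-(q t * u t)) t) (hq : ∀ t, q t < 4) {a b : ℝ}
    (hb : b ≤ a + π / 2) (ha0 : u a = 0) (hb0 : u b = 0) : ∀ t ∈ Ioo a b, u t = 0 := by
  intro t ht
  by_contra hn
  have cu : Continuous u := continuous_iff_continuousAt.2 fun t => (hu t).continuousAt
  have z : IsClosed {s | u s = 0} := isClosed_eq cu continuous_const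
  obtain ⟨a', ⟨a1, a2⟩, a3⟩ := (isCompact_Icc.inter_right z (s := Icc a t)).exists_isGreatest
    ⟨a, left_mem_Icc.2 ht.1.le, ha0⟩
  obtain ⟨b', ⟨b1, b2⟩, b3⟩ := (isCompact_Icc.inter_right z (s := Icc t b)).exists_isLeast
    ⟨b, right_mem_Icc.2 ht.2.le, hb0⟩
  have l1 : a' < t := lt_of_le_of_ne a1.2 fun e => hn (e ▸ a2)
  have l2 : t < b' := lt_of_le_of_ne b1.1 fun e => hn (e ▸ b2)
  have n0 : ∀ s ∈ Ioo a' b', u s ≠ 0 := fun s hs e => by
    rcases le_total s t with k | k
    · exact hs.1.not_ge (a3 ⟨⟨a1.1.trans hs.1.le, k⟩, e⟩)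
    · exact hs.2.not_ge (b3 ⟨⟨k, hs.2.le.trans b1.2⟩, e⟩)
  have l3 : b' ≤ a' + π / 2 := by linarith [a1.1, b1.2]
  rcases one_sign cu n0 with h | h
  · exact sturm2' hu hv hq (l1.trans l2) l3 a2 b2 h
  · exact sturm2' (u := fun t => -u t) (v := fun t => -v t) (fun t => (hu t).neg)
      (fun t => (hv t).neg.congr_deriv (by ring)) hq (l1.trans l2) l3 (neg_eq_zero.2 a2)
      (neg_eq_zero.2 b2) fun t ht => neg_pos.2 (h t ht)

/-- positive global solutions of `h' = g`, `g' = 2 / h - h` -/
structure Sol (h g : ℝ → ℝ) : Prop where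
  pos : ∀ t, 0 < h t
  dh : ∀ t, HasDerivAt h (g t) t
  dg : ∀ t, HasDerivAt g (2 / h t - h t) t

/-- the energy -/
def en (h g : ℝ) : ℝ := g ^ 2 + h ^ 2 - 4 * log h

lemma d_en {h g : ℝ → ℝ} {t : ℝ} (p : 0 < h t) (dh : HasDerivAt h (g t) t)
    (dg : HasDerivAt g (2 / h t - h t) t) : HasDerivAt (fun t => en (h t) (g t)) 0 t := by
  have := ((dg.pow 2).add (dh.pow 2)).sub ((dh.log p.ne').const_mul 4)
  refine this.congr_deriv ?_
  field_simp
  ring

lemma exp_le_of_en {h g : ℝ} (p : 0 < h) : exp (-en h g / 4) ≤ h := by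
  rw [← le_log_iff_exp_le p, en]
  nlinarith

/-- the cut off field -/
def fld (m : ℝ) (x : ℝ × ℝ) : ℝ × ℝ := (x.2, 2 / max x.1 m - x.1)

lemma lip_fld {m : ℝ} (hm : 0 < m) : LipschitzWith (Real.toNNReal (2 / m ^ 2 + 1)) (fld m) := by
  refine LipschitzWith.of_dist_le_mul fun x y => ?_
  rw [Real.coe_toNNReal _ (by positivity), Prod.dist_eq, Prod.dist_eq]
  have d1 := le_max_left (dist x.1 y.1) (dist x.2 y.2)
  have d2 := le_max_right (dist x.1 y.1) (dist x.2 y.2)
  have d0 : 0 ≤ max (dist x.1 y.1) (dist x.2 y.2) := dist_nonneg.trans d1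
  have k0 : 0 ≤ 2 / m ^ 2 * max (dist x.1 y.1) (dist x.2 y.2) := by positivity
  refine max_le (by simp only [fld]; linarith) ?_
  have a1 := le_max_right x.1 m
  have a2 := le_max_right y.1 m
  have a3 := abs_max_sub_max_le_abs x.1 y.1 m
  have e : 2 / max x.1 m - 2 / max y.1 m =
      -(2 / (max x.1 m * max y.1 m) * (max x.1 m - max y.1 m)) := by
    field_simp [(hm.trans_le a1).ne', (hm.trans_le a2).ne']
    ring
  have i : |2 / max x.1 m - 2 / max y.1 m| ≤ 2 / m ^ 2 * max (dist x.1 y.1) (dist x.2 y.2) := by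
    rw [e, abs_neg, abs_mul, abs_of_pos (div_pos two_pos (mul_pos (hm.trans_le a1) (hm.trans_le a2)))]
    refine mul_le_mul (div_le_div_of_nonneg_left two_pos.le (by positivity) ?_) (a3.trans d1)
      (abs_nonneg _) (by positivity)
    rw [sq]
    exact mul_le_mul a1 a2 hm.le (hm.le.trans a1)
  have j := abs_sub (2 / max x.1 m - 2 / max y.1 m) (x.1 - y.1)
  replace d1 : |x.1 - y.1| ≤ _ := d1
  simp only [fld, Real.dist_eq (2 / _ - _)]
  rw [show 2 / max x.1 m - x.1 - (2 / max y.1 m - y.1) =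
    2 / max x.1 m - 2 / max y.1 m - (x.1 - y.1) by ring]
  linarith

theorem exists_sol {h0 : ℝ} (p : 0 < h0) (g0 : ℝ) : ∃ h g, Sol h g ∧ h 0 = h0 ∧ g 0 = g0 := by
  set m := exp (-en h0 g0 / 4) / 2 with hm
  have m0 : 0 < m := by positivity
  obtain ⟨S, -, s0, s1⟩ := R086.BFlow.exists_flow (X := Unit) (F := fun _ _ x => fld m x)
    ((lip_fld m0).continuous.comp (by fun_prop)) (fun _ _ => lip_fld m0) 0
    (x0 := fun _ => (h0, g0)) continuous_const
  set h : ℝ → ℝ := fun t => (S () t).1
  set g : ℝ → ℝ := fun t => (S () t).2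
  have dh : ∀ t, HasDerivAt h (g t) t := fun t => (s1 () t).fst
  have dg : ∀ t, HasDerivAt g (2 / max (h t) m - h t) t := fun t => (s1 () t).snd
  have ch : Continuous h := continuous_iff_continuousAt.2 fun t => (dh t).continuousAt
  have cg : Continuous g := continuous_iff_continuousAt.2 fun t => (dg t).continuousAt
  have e0 : h 0 = h0 := congrArg Prod.fst (s0 ())
  have e1 : g 0 = g0 := congrArg Prod.snd (s0 ())
  have key : IsClopen {t | 2 * m ≤ h t ∧ en (h t) (g t) = en h0 g0} := by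
    constructor
    · refine isClosed_iff_frequently.2 fun t ht => ?_
      have l : 2 * m ≤ h t := ((isClosed_le continuous_const ch).closure_subset
        (mem_closure_iff_frequently.2 (ht.mono fun s hs => hs.1)) :)
      have c : ContinuousAt (fun t => en (h t) (g t)) t :=
        ((cg.continuousAt.pow 2).add (ch.continuousAt.pow 2)).sub
          ((ch.continuousAt.log (by linarith)).const_mul 4)
      exact ⟨l, tendsto_nhds_unique_of_frequently_eq c tendsto_const_nhds (ht.mono fun s hs => hs.2)⟩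
    · refine isOpen_iff_mem_nhds.2 fun t ht => ?_
      obtain ⟨ε, ε0, hε⟩ := Metric.eventually_nhds_iff_ball.1
        (ch.continuousAt.eventually (lt_mem_nhds (show m < h t by linarith [ht.1])))
      have d : ∀ s ∈ Metric.ball t ε, HasDerivAt (fun t => en (h t) (g t)) 0 s := fun s hs =>
        d_en (m0.trans (hε s hs)) (dh s) (by simpa [max_eq_left (hε s hs).le] using dg s)
      filter_upwards [Metric.ball_mem_nhds t ε0] with s hs
      have k : en (h s) (g s) = en (h t) (g t) :=
        Metric.isOpen_ball.is_const_of_deriv_eq_zero (convex_ball t ε).isPreconnected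
          (fun s hs => (d s hs).differentiableAt.differentiableWithinAt)
          (fun s hs => (d s hs).deriv) hs (Metric.mem_ball_self ε0)
      have := exp_le_of_en (g := g s) (m0.trans (hε s hs))
      rw [k, ht.2] at this
      exact ⟨by linarith, k.trans ht.2⟩
  have all := key.eq_univ ⟨0, by
    have := exp_le_of_en (g := g0) p
    rw [mem_ofPred_eq, e0, e1]
    exact ⟨by linarith, rfl⟩⟩
  have l : ∀ t, 2 * m ≤ h t := fun t => (all.ge (mem_univ t)).1
  exact ⟨h, g, ⟨fun t => by linarith [l t], dh, fun t => by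
    simpa [max_eq_left (show m ≤ h t by linarith [l t])] using dg t⟩, e0, e1⟩

namespace Sol

variable {h g h' g' : ℝ → ℝ} (s : Sol h g)
include s

lemma ch : Continuous h := continuous_iff_continuousAt.2 fun t => (s.dh t).continuousAt

lemma cg : Continuous g := continuous_iff_continuousAt.2 fun t => (s.dg t).continuousAt

lemma energy (t t' : ℝ) : en (h t) (g t) = en (h t') (g t') :=
  is_const_of_deriv_eq_zero (fun t => (d_en (s.pos t) (s.dh t) (s.dg t)).differentiableAt)
    (fun t => (d_en (s.pos t) (s.dh t) (s.dg t)).deriv) t t'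

lemma lb : ∃ m > 0, ∀ t, m ≤ h t :=
  ⟨exp (-en (h 0) (g 0) / 4), exp_pos _, fun t => s.energy t 0 ▸ exp_le_of_en (s.pos t)⟩

lemma unique (s' : Sol h' g') {z : ℝ} (e1 : h z = h' z) (e2 : g z = g' z) (t : ℝ) :
    h t = h' t ∧ g t = g' t := by
  obtain ⟨m, m0, hm⟩ := s.lb
  obtain ⟨m', m0', hm'⟩ := s'.lb
  have k : ∀ {h g : ℝ → ℝ}, Sol h g → (∀ t, min m m' ≤ h t) → ∀ t,
      HasDerivAt (fun t => (h t, g t)) (fld (min m m') (h t, g t)) t := fun s l t => by
    simpa [fld, max_eq_left (l t)] using (s.dh t).prodMk (s.dg t)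
  have := ODE_solution_unique_univ (v := fun _ => fld (min m m')) (s := fun _ => univ)
    (fun _ => (lip_fld (lt_min m0 m0')).lipschitzOnWith)
    (fun t => ⟨k s (fun t => (min_le_left _ _).trans (hm t)) t, mem_univ _⟩)
    (fun t => ⟨k s' (fun t => (min_le_right _ _).trans (hm' t)) t, mem_univ _⟩)
    (t₀ := z) (Prod.ext e1 e2)
  exact Prod.ext_iff.1 (congrFun this t)

lemma shift (c : ℝ) : Sol (fun t => h (t + c)) fun t => g (t + c) :=
  ⟨fun _ => s.pos _, fun t => (s.dh _).comp_add_const t c, fun t => (s.dg _).comp_add_const t c⟩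

lemma refl (c : ℝ) : Sol (fun t => h (c - t)) fun t => -g (c - t) :=
  ⟨fun _ => s.pos _, fun t => (s.dh _).comp_const_sub c t, fun t =>
    ((s.dg _).comp_const_sub c t).neg.congr_deriv (neg_neg _)⟩

lemma const {z : ℝ} (e1 : h z = √2) (e2 : g z = 0) (t : ℝ) : h t = √2 ∧ g t = 0 :=
  s.unique (h' := fun _ => √2) (g' := fun _ => 0) ⟨fun _ => by positivity,
    fun t => hasDerivAt_const _ _, fun t => by
      refine (hasDerivAt_const t (0 : ℝ)).congr_deriv ?_
      rw [eq_comm, sub_eq_zero, div_eq_iff (by positivity), mul_self_sqrt two_pos.le]⟩ e1 e2 t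

lemma zeros (a : ℝ) : ∃ t ∈ Ioo a (a + π), h t = √2 := by
  obtain ⟨t, ht, e⟩ := sturm1 (u := fun t => h t - √2) (v := g) (q := fun t => (h t + √2) / h t)
    (fun t => (s.dh t).sub_const _) (fun t => by
      refine (s.dg t).congr_deriv ?_
      have := (s.pos t).ne'
      field_simp
      linear_combination -mul_self_sqrt (two_pos (α := ℝ)).le)
    (fun t => (one_lt_div (s.pos t)).2 (lt_add_of_pos_right _ (by positivity))) a
  exact ⟨t, ht, sub_eq_zero.1 e⟩

lemma crit : (∃ z, g z = 0 ∧ √2 ≤ h z) ∧ ∃ z, g z = 0 ∧ h z ≤ √2 := by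
  obtain ⟨a, ⟨a1, a2⟩, ha⟩ := s.zeros 0
  obtain ⟨b, ⟨b1, b2⟩, hb⟩ := s.zeros π
  obtain ⟨c, ⟨c1, c2⟩, hc⟩ := s.zeros (π + π)
  have ab : a < b := by linarith
  have bc : b < c := by linarith
  constructor
  · obtain ⟨z, hz, m⟩ := isCompact_Icc.exists_isMaxOn (nonempty_Icc.2 (ab.trans bc).le)
      s.ch.continuousOn
    have l : √2 ≤ h z := ha ▸ m (left_mem_Icc.2 (ab.trans bc).le)
    rcases l.eq_or_lt with e | e
    · refine ⟨b, IsLocalMax.hasDerivAt_eq_zero ?_ (s.dh b), hb.ge⟩
      filter_upwards [Icc_mem_nhds ab bc] with t ht using (m ht).trans (by rw [hb, e])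
    · refine ⟨z, (m.isLocalMax (Icc_mem_nhds (lt_of_le_of_ne hz.1 ?_)
        (lt_of_le_of_ne hz.2 ?_))).hasDerivAt_eq_zero (s.dh z), l⟩
      · rintro rfl; exact e.ne ha.symm
      · rintro rfl; exact e.ne hc.symm
  · obtain ⟨z, hz, m⟩ := isCompact_Icc.exists_isMinOn (nonempty_Icc.2 (ab.trans bc).le)
      s.ch.continuousOn
    have l : h z ≤ √2 := ha ▸ m (left_mem_Icc.2 (ab.trans bc).le)
    rcases l.eq_or_lt with e | e
    · refine ⟨b, IsLocalMin.hasDerivAt_eq_zero ?_ (s.dh b), hb.le⟩
      filter_upwards [Icc_mem_nhds ab bc] with t ht using le_trans (by rw [hb, e]) (m ht)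
    · refine ⟨z, (m.isLocalMin (Icc_mem_nhds (lt_of_le_of_ne hz.1 ?_)
        (lt_of_le_of_ne hz.2 ?_))).hasDerivAt_eq_zero (s.dh z), l⟩
      · rintro rfl; exact e.ne ha
      · rintro rfl; exact e.ne hc

omit s in
lemma d_psi {x : ℝ} (p : 0 < x) : HasDerivAt (fun x => en x 0) (2 * x - 4 / x) x := by
  have := ((hasDerivAt_const x ((0 : ℝ) ^ 2)).add ((hasDerivAt_id x).pow 2)).sub
    ((hasDerivAt_log p.ne').const_mul 4)
  refine this.congr_deriv ?_
  simp [div_eq_mul_inv]

lemma extr : (∃ z, ∀ t, h t ≤ h z) ∧ ∃ z, ∀ t, h z ≤ h t := by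
  obtain ⟨⟨z, z1, z2⟩, w, w1, w2⟩ := s.crit
  have r0 : (0 : ℝ) < √2 := by positivity
  have r2 := mul_self_sqrt (two_pos (α := ℝ)).le
  have l : ∀ t z, g z = 0 → en (h t) 0 ≤ en (h z) 0 := fun t z e => by
    rw [← e, ← s.energy t z, e]
    simp only [en]
    nlinarith
  refine ⟨⟨z, fun t => le_of_not_gt fun k => ?_⟩, w, fun t => le_of_not_gt fun k => ?_⟩
  · refine (l t z z1).not_gt (strictMonoOn_of_deriv_pos (convex_Ici √2) (f := fun x => en x 0)
      (fun x hx => (d_psi (r0.trans_le hx)).continuousAt.continuousWithinAt) (fun x hx => ?_)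
      z2 (z2.trans k.le) k)
    rw [interior_Ici] at hx
    have x0 : 0 < x := r0.trans hx
    rw [(d_psi x0).deriv, sub_pos, div_lt_iff₀ x0]
    nlinarith [mul_self_lt_mul_self r0.le hx]
  · refine (l t w w1).not_gt (strictAntiOn_of_deriv_neg (convex_Ioc 0 √2) (f := fun x => en x 0)
      (fun x hx => (d_psi hx.1).continuousAt.continuousWithinAt) (fun x hx => ?_)
      ⟨s.pos t, k.le.trans w2⟩ ⟨s.pos w, w2⟩ k)
    rw [interior_Ioc] at hx
    rw [(d_psi hx.1).deriv, sub_neg, lt_div_iff₀ hx.1]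
    nlinarith [mul_self_lt_mul_self hx.1.le hx.2]

/-- the curve with support function `h` meets itself after one turn round the origin -/
theorem cross : ∃ t t', π < t' - t ∧ t' - t < 3 * π ∧
    h t' * cos t' - g t' * sin t' = h t * cos t - g t * sin t ∧
    h t' * sin t' + g t' * cos t' = h t * sin t + g t * cos t := by
  set α : ℝ → ℝ := fun t => t + arctan (g t / h t) with hα
  have d : ∀ t, HasDerivAt α (2 / (h t ^ 2 + g t ^ 2)) t := fun t => by
    have := (hasDerivAt_id t).add ((s.dg t).div (s.dh t) (s.pos t).ne').arctan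
    refine this.congr_deriv ?_
    have := s.pos t
    simp only [Pi.div_apply]
    field_simp
    ring
  have ca : Continuous α := continuous_iff_continuousAt.2 fun t => (d t).continuousAt
  have ma : StrictMono α := strictMono_of_deriv_pos fun t => by
    have := s.pos t
    rw [(d t).deriv]
    positivity
  have b1 : ∀ t, t - π / 2 < α t ∧ α t < t + π / 2 := fun t =>
    ⟨by linarith [neg_pi_div_two_lt_arctan (g t / h t)],
      by linarith [arctan_lt_pi_div_two (g t / h t)]⟩
  have sa : Function.Surjective α := ca.surjective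
    (tendsto_atTop_mono (fun t => (b1 t).1.le) (tendsto_atTop_add_const_right _ _ tendsto_id))
    (tendsto_atBot_mono (fun t => (b1 t).2.le) (tendsto_atBot_add_const_right _ _ tendsto_id))
  set I := ma.orderIsoOfSurjective α sa
  set σ : ℝ → ℝ := fun t => I.symm (α t + 2 * π)
  have cσ : Continuous σ := I.symm.continuous.comp (ca.add continuous_const)
  have eσ : ∀ t, α (σ t) = α t + 2 * π := fun t => I.apply_symm_apply _
  obtain ⟨⟨z, hz⟩, w, hw⟩ := s.extr
  obtain ⟨t, e⟩ := intermediate_value_univ₂ (s.ch.comp cσ) s.ch (hz (σ z)) (hw (σ w))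
  replace e : h (σ t) = h t := e
  have e2 : g (σ t) ^ 2 = g t ^ 2 := by
    have := s.energy (σ t) t
    simp only [en, e] at this
    linarith
  have pol : ∀ t, h t * cos t - g t * sin t = h t * √(1 + (g t / h t) ^ 2) * cos (α t) ∧
      h t * sin t + g t * cos t = h t * √(1 + (g t / h t) ^ 2) * sin (α t) := fun t => by
    have p := (s.pos t).ne'
    have q : √(1 + (g t / h t) ^ 2) ≠ 0 := by positivity
    simp only [hα, cos_add, sin_add, cos_arctan, sin_arctan]
    constructor <;> field_simp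
  refine ⟨t, σ t, by linarith [eσ t, b1 t, b1 (σ t)], by linarith [eσ t, b1 t, b1 (σ t)], ?_, ?_⟩
  · rw [(pol _).1, (pol _).1, eσ, cos_add_two_pi, div_pow, div_pow, e, e2]
  · rw [(pol _).2, (pol _).2, eσ, sin_add_two_pi, div_pow, div_pow, e, e2]

/-- `2π`-periodic solutions are constant -/
theorem per {t0 : ℝ} (e1 : h (t0 + 2 * π) = h t0) (e2 : g (t0 + 2 * π) = g t0) (t : ℝ) :
    h t = √2 ∧ g t = 0 := by
  have p := (s.shift (2 * π)).unique s e1 e2
  obtain ⟨⟨z, z1, -⟩, -⟩ := s.crit
  have r := (s.refl (2 * z)).unique s (z := z) (by ring_nf) (by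
    rw [show 2 * z - z = z by ring, z1, neg_zero])
  have z2 : g (z + π) = 0 := by
    have a1 := (r (z + π)).2
    have a2 := (p (z - π)).2
    rw [show 2 * z - (z + π) = z - π by ring] at a1
    rw [show z - π + 2 * π = z + π by ring] at a2
    linarith
  obtain ⟨w, ⟨w1, w2⟩, w3⟩ := sturm1 (u := g) (v := fun t => 2 / h t - h t)
    (q := fun t => 1 + 2 / h t ^ 2) s.dg (fun t => by
      refine ((((s.dh t).inv (s.pos t).ne').const_mul 2).sub (s.dh t)).congr_deriv ?_
      ring) (fun t => lt_add_of_pos_right _ (by have := s.pos t; positivity)) z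
  have k : ∀ a b, a < b → b ≤ a + π / 2 → g a = 0 → g b = 0 → h t = √2 ∧ g t = 0 := by
    intro a b ab l ga gb
    have v := sturm2 (u := fun t => h t * g t) (v := fun t => g t ^ 2 + 2 - h t ^ 2)
      (q := fun t => 4 - 4 / h t ^ 2) (fun t => by
        refine ((s.dh t).mul (s.dg t)).congr_deriv ?_
        have := (s.pos t).ne'
        field_simp
        ring) (fun t => by
        refine ((((s.dg t).pow 2).add_const 2).sub ((s.dh t).pow 2)).congr_deriv ?_
        have := (s.pos t).ne'
        field_simp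
        ring) (fun t => sub_lt_self _ (by have := s.pos t; positivity)) l (by simp [ga])
      (by simp [gb])
    have g0 : ∀ x ∈ Ioo a b, g x = 0 := fun x hx =>
      (mul_eq_zero.1 (v x hx)).resolve_left (s.pos x).ne'
    have m : (a + b) / 2 ∈ Ioo a b := ⟨by linarith, by linarith⟩
    have d0 : HasDerivAt g 0 ((a + b) / 2) := (hasDerivAt_const _ (0 : ℝ)).congr_of_eventuallyEq
      (by filter_upwards [Ioo_mem_nhds m.1 m.2] with x hx using g0 x hx)
    have e := (s.dg _).unique d0
    have p0 := s.pos ((a + b) / 2)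
    rw [sub_eq_zero, div_eq_iff p0.ne'] at e
    exact s.const (by rw [← sqrt_mul_self p0.le, ← e]) (g0 _ m) t
  rcases le_total w (z + π / 2) with l | l
  · exact k z w w1 l z1 w3
  · exact k w (z + π) w2 (by linarith) w3 z2

end Sol

end Crest.Agent.N250.Ode
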