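import Crest.Agent.N250.E.Hs
import Crest.Agent.N250.E.Ode

/-!
Row 250, block E (helper85): a shrinker which is invariant under the translations along a unit
vector `y` is empty, a plane or the round cylinder with axis `ℝ y`.
-/

set_option autoImplicit false

open Set Filter Topology Real
open scoped ContDiff InnerProductSpace
open Crest.GeometryTopology.MCF

noncomputable section

namespace Crest.Agent.N250.Cls

/-- cross product with `y` -/
def J (y : E) : E →L[ℝ] E := LinearMap.toContinuousLinearMap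
  { toFun := fun v => !₂[y 1 * v 2 - y 2 * v 1, y 2 * v 0 - y 0 * v 2, y 0 * v 1 - y 1 * v 0]
    map_add' := fun a b => by ext i; fin_cases i <;> simp <;> ring
    map_smul' := fun c a => by ext i; fin_cases i <;> simp <;> ring }

lemma J0 (y v : E) : J y v 0 = y 1 * v 2 - y 2 * v 1 := rfl
lemma J1 (y v : E) : J y v 1 = y 2 * v 0 - y 0 * v 2 := rfl
lemma J2 (y v : E) : J y v 2 = y 0 * v 1 - y 1 * v 0 := rfl

lemma in3 (a b : E) : ⟪a, b⟫_ℝ = a 0 * b 0 + a 1 * b 1 + a 2 * b 2 := by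
  simp [PiLp.inner_apply, Fin.sum_univ_three, mul_comm]

lemma ext3 {a b : E} (h0 : a 0 = b 0) (h1 : a 1 = b 1) (h2 : a 2 = b 2) : a = b := by
  ext i; fin_cases i <;> assumption

lemma y_J (y v : E) : ⟪y, J y v⟫_ℝ = 0 := by rw [in3, J0, J1, J2]; ring

lemma self_J (y v : E) : ⟪v, J y v⟫_ℝ = 0 := by rw [in3, J0, J1, J2]; ring

lemma J_J0 (y v : E) : J y (J y v) = ⟪y, v⟫_ℝ • y - ⟪y, y⟫_ℝ • v := by
  apply ext3 <;> simp only [J0, J1, J2, in3, PiLp.sub_apply, PiLp.smul_apply, smul_eq_mul] <;> ring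

lemma JJ0 (y v : E) : ⟪J y v, J y v⟫_ℝ = ⟪y, y⟫_ℝ * ⟪v, v⟫_ℝ - ⟪y, v⟫_ℝ ^ 2 := by
  simp only [J0, J1, J2, in3]; ring

lemma expand0 (a b v : E) : ⟪J a b, v⟫_ℝ • J a b =
    (⟪a, a⟫_ℝ * ⟪b, b⟫_ℝ - ⟪a, b⟫_ℝ ^ 2) • v - (⟪b, b⟫_ℝ * ⟪a, v⟫_ℝ) • a - (⟪a, a⟫_ℝ * ⟪b, v⟫_ℝ) • b +
      ⟪a, b⟫_ℝ • (⟪b, v⟫_ℝ • a + ⟪a, v⟫_ℝ • b) := by
  apply ext3 <;>
    simp only [J0, J1, J2, in3, PiLp.sub_apply, PiLp.add_apply, PiLp.smul_apply, smul_eq_mul] <;> ring

/-- `y, N` are orthonormal -/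
structure Fr (y N : E) : Prop where
  yy : ⟪y, y⟫_ℝ = 1
  nn : ⟪N, N⟫_ℝ = 1
  yn : ⟪y, N⟫_ℝ = 0

namespace Fr

variable {y N : E} (f : Fr y N)
include f

lemma ny : ⟪N, y⟫_ℝ = 0 := by rw [real_inner_comm, f.yn]

lemma jj : ⟪J y N, J y N⟫_ℝ = 1 := by rw [JJ0, f.yy, f.nn, f.yn]; ring

lemma J_J : J y (J y N) = -N := by rw [J_J0, f.yy, f.yn]; simp

lemma expand (v : E) : v = ⟪y, v⟫_ℝ • y + ⟪N, v⟫_ℝ • N + ⟪J y N, v⟫_ℝ • J y N := by
  rw [expand0, f.yy, f.nn, f.yn]; simp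

lemma trace (T : E →L[ℝ] E) :
    ∑ a, ⟪ee a, T (ee a)⟫_ℝ = ⟪y, T y⟫_ℝ + ⟪N, T N⟫_ℝ + ⟪J y N, T (J y N)⟫_ℝ := by
  have e : ∀ a, T (ee a) = y a • T y + N a • T N + J y N a • T (J y N) := fun a => by
    conv_lhs => rw [f.expand (ee a)]
    simp [EuclideanSpace.inner_single_right]
  simp only [e, EuclideanSpace.inner_single_left, Fin.sum_univ_three, in3 y, in3 N, in3 (J y N),
    PiLp.add_apply, PiLp.smul_apply, smul_eq_mul, map_one, one_mul]
  ring

/-- the rotating unit vector -/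
lemma rot (t : ℝ) : Fr y (cos t • N + sin t • J y N) := by
  refine ⟨f.yy, ?_, ?_⟩
  · simp only [inner_add_left, inner_add_right, real_inner_smul_left, real_inner_smul_right, f.nn,
      f.jj, self_J, real_inner_comm N (J y N)]
    nlinarith [sin_sq_add_cos_sq t]
  · simp only [inner_add_right, real_inner_smul_right, f.yn, y_J]; ring

lemma J_rot (t : ℝ) : J y (cos t • N + sin t • J y N) = (-sin t) • N + cos t • J y N := by
  rw [map_add, map_smul, map_smul, f.J_J]; module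

end Fr

/-- shrinkers invariant under the translations along `y` -/
structure Cy (S : Set E) (n : E → E) (y : E) : Prop extends Hs S n where
  yy : ⟪y, y⟫_ℝ = 1
  tr : ∀ x ∈ S, ∃ L : E →L[ℝ] E, HasFDerivWithinAt n L S x ∧
    ∑ a, ⟪ee a, L (ee a - ⟪n x, ee a⟫_ℝ • n x)⟫_ℝ = ⟪x, n x⟫_ℝ / 2
  inv : ∀ x ∈ S, ∀ t : ℝ, x + t • y ∈ S

/-- the planar system `X' = J e`, `e' = ⟨X, e⟩ / 2 • J e` -/
def V (y : E) (z : E × E) : E × E := (J y z.2, (⟪z.1, z.2⟫_ℝ / 2) • J y z.2)

lemma cd_V (y : E) : ContDiff ℝ 1 (V y) :=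
  ((J y).contDiff.comp contDiff_snd).prodMk
    (((contDiff_fst.inner ℝ contDiff_snd).div_const 2).smul ((J y).contDiff.comp contDiff_snd))

namespace Cy

variable {S : Set E} {n : E → E} {y : E} (s : Cy S n y)
include s

lemma fr {x : E} (hx : x ∈ S) : Fr y (n x) :=
  ⟨s.yy, s.toHs.unit hx, by rw [real_inner_comm]; exact s.toHs.perp_line (s.inv x hx)⟩

lemma neg : Cy S (fun x => -n x) y := by
  refine ⟨s.toHs.neg, s.yy, fun x hx => ?_, s.inv⟩
  obtain ⟨L, h1, h2⟩ := s.tr x hx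
  refine ⟨-L, h1.neg, ?_⟩
  simp only [neg_apply, inner_neg_right, inner_neg_left, neg_smul, smul_neg,
    neg_neg, Finset.sum_neg_distrib, h2]
  ring

lemma d_perp {L : E →L[ℝ] E} {c : ℝ → E} {v : E} {t : ℝ} (hL : HasFDerivWithinAt n L S (c t))
    (hc : HasDerivAt c v t) (hS : ∀ᶠ u in 𝓝 t, c u ∈ S) :
    ⟪y, L v⟫_ℝ = 0 ∧ ⟪n (c t), L v⟫_ℝ = 0 := by
  have d := hL.comp_hasDerivAt t hc hS
  constructor
  · have d1 := (hasDerivAt_const t y).inner ℝ d
    have z : (fun u => ⟪y, (n ∘ c) u⟫_ℝ) =ᶠ[𝓝 t] fun _ => 0 := hS.mono fun u hu => (s.fr hu).yn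
    simpa using d1.unique ((hasDerivAt_const t (0 : ℝ)).congr_of_eventuallyEq z)
  · have d1 := d.inner ℝ d
    have z : (fun u => ⟪(n ∘ c) u, (n ∘ c) u⟫_ℝ) =ᶠ[𝓝 t] fun _ => 1 :=
      hS.mono fun u hu => (s.fr hu).nn
    have := d1.unique ((hasDerivAt_const t (1 : ℝ)).congr_of_eventuallyEq z)
    rw [real_inner_comm ((n ∘ c) t) (L v)] at this
    simp only [Function.comp] at this
    linarith

/-- local solutions of the planar system on the surface -/
lemma loc_sol {x : E} (hx : x ∈ S) : ∃ c : ℝ → E, c 0 = x ∧ ∀ᶠ u in 𝓝 (0 : ℝ), c u ∈ S ∧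
    HasDerivAt (fun u => (c u, n (c u))) (V y (c u, n (c u))) u := by
  obtain ⟨c, c0, hc⟩ := s.toHs.flow (T := J y) (J y).contDiff (fun v _ => self_J y v) hx
  refine ⟨c, c0, ?_⟩
  filter_upwards [hc.eventually_nhds] with u hu
  obtain ⟨uS, du⟩ := hu.self_of_nhds
  have hS := hu.mono fun _ h => h.1
  obtain ⟨L, h1, h2⟩ := s.tr _ uS
  have f := s.fr uS
  refine ⟨uS, du.prodMk ((h1.comp_hasDerivAt u du hS).congr_deriv ?_)⟩
  obtain ⟨a1, a2⟩ := s.d_perp h1 du hS
  have dl : HasDerivAt (fun w : ℝ => c u + w • y) y 0 := by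
    simpa using ((hasDerivAt_id (0 : ℝ)).smul_const y).const_add (c u)
  have a3 := (s.d_perp (c := fun w : ℝ => c u + w • y) (L := L) (by simpa using h1) dl
    (Eventually.of_forall (s.inv _ uS))).1
  have t := f.trace (L.comp (ContinuousLinearMap.id ℝ E - (innerSL ℝ (n (c u))).smulRight (n (c u))))
  simp only [ContinuousLinearMap.comp_apply, sub_apply,
    ContinuousLinearMap.id_apply, ContinuousLinearMap.smulRight_apply, innerSL_apply_apply, h2,
    f.ny, f.nn, self_J, zero_smul, one_smul, sub_zero, sub_self, map_zero, inner_zero_right, a3,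
    zero_add] at t
  rw [f.expand (L _), a1, a2, ← t]
  simp

/-- solutions of the time changed system stay on the surface -/
lemma prop {Z : ℝ → E × E} {μ : ℝ → ℝ} (hμ : Continuous μ)
    (hZ : ∀ t, HasDerivAt Z (μ t • V y (Z t)) t) (h0 : (Z 0).1 ∈ S ∧ (Z 0).2 = n (Z 0).1) (t : ℝ) :
    (Z t).1 ∈ S ∧ (Z t).2 = n (Z t).1 := by
  have cZ : Continuous Z := continuous_iff_continuousAt.2 fun t => (hZ t).continuousAt
  have : IsClopen {t : ℝ | (Z t).1 ∈ S ∧ (Z t).2 = n (Z t).1} := by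
    constructor
    · have c1 : IsClosed {t : ℝ | (Z t).1 ∈ S} := s.closed.preimage cZ.fst
      exact c1.isClosed_eq cZ.snd.continuousOn
        (s.toHs.cont.comp cZ.fst.continuousOn fun t ht => ht)
    · refine isOpen_iff_mem_nhds.2 fun t0 ht => ?_
      obtain ⟨c, c0, hc⟩ := s.loc_sol ht.1
      obtain ⟨K, U, hU, hK⟩ := ((cd_V y).contDiffAt (x := Z t0)).exists_lipschitzOnWith
      set σ : ℝ → ℝ := fun t => ∫ u in t0..t, μ u with hσ
      have dσ : ∀ t, HasDerivAt σ (μ t) t := fun t => (hμ.integral_hasStrictDerivAt t0 t).hasDerivAt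
      have σ0 : σ t0 = 0 := by simp [hσ]
      have tσ : Tendsto σ (𝓝 t0) (𝓝 0) := σ0 ▸ (dσ t0).continuousAt.tendsto
      set W : ℝ → E × E := fun t => (c (σ t), n (c (σ t))) with hW
      have dW : ∀ᶠ t in 𝓝 t0, c (σ t) ∈ S ∧ HasDerivAt W (μ t • V y (W t)) t :=
        (tσ.eventually hc).mono fun t h => ⟨h.1, h.2.scomp t (dσ t)⟩
      have W0 : W t0 = Z t0 := by
        simp only [hW, σ0, c0]
        exact Prod.ext rfl ht.2.symm
      have b : ∀ᶠ t in 𝓝 t0, ‖μ t‖₊ ≤ ‖μ t0‖₊ + 1 :=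
        (hμ.nnnorm.tendsto t0).eventually (eventually_le_nhds (lt_add_one _))
      have u : Z =ᶠ[𝓝 t0] W := by
        refine ODE_solution_unique_of_eventually (v := fun t z => μ t • V y z) (s := fun _ => U)
          (K := (‖μ t0‖₊ + 1) * K) (b.mono fun t h => ?_) ?_ ?_ W0.symm
        · exact ((lipschitzWith_smul (μ t)).lipschitzOnWith (s := univ) |>.comp hK
            (mapsTo_univ _ _)).weaken (by gcongr)
        · filter_upwards [cZ.continuousAt.preimage_mem_nhds hU] with t h using ⟨hZ t, h⟩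
        · filter_upwards [dW, dW.self_of_nhds.2.continuousAt.preimage_mem_nhds (W0 ▸ hU)]
            with t h1 h2 using ⟨h1.2, h2⟩
      filter_upwards [u, dW] with t h1 h2
      rw [h1]
      exact ⟨h2.1, rfl⟩
  have u := this.eq_univ ⟨0, h0⟩
  exact (u ▸ mem_univ t : t ∈ {t : ℝ | (Z t).1 ∈ S ∧ (Z t).2 = n (Z t).1})

/-- a point with vanishing support function lies on a plane contained in the surface -/
lemma plane {p : E} (hp : p ∈ S) (h0 : ⟪p, n p⟫_ℝ = 0) {x : E} (hx : ⟪x, n p⟫_ℝ = 0) : x ∈ S := by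
  have f := s.fr hp
  have k := fun t => (s.prop (Z := fun t => (p + t • J y (n p), n p)) (μ := fun _ => 1)
    continuous_const (fun t => by
      refine ((((hasDerivAt_id t).smul_const (J y (n p))).const_add p).prodMk
        (hasDerivAt_const t (n p))).congr_deriv ?_
      simp [V, inner_add_left, real_inner_smul_left, h0, real_inner_comm (n p) (J y (n p)), self_J])
    (by simpa using hp) t).1
  have e : x = p + ⟪J y (n p), x - p⟫_ℝ • J y (n p) + ⟪y, x - p⟫_ℝ • y := by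
    have := f.expand (x - p)
    rw [inner_sub_right (n p), real_inner_comm x, real_inner_comm p (n p), hx, h0] at this
    rw [← sub_add_cancel x p]
    conv_lhs => rw [this]
    simp only [sub_add_cancel]
    module
  rw [e]
  exact s.inv _ (k _) _

/-- a point with positive support function lies on a round circle contained in the surface -/
lemma circle {p : E} (hp : p ∈ S) (h0 : 0 < ⟪p, n p⟫_ℝ) :
    p = ⟪y, p⟫_ℝ • y + √2 • n p ∧
      ∀ t, ⟪y, p⟫_ℝ • y + √2 • (cos t • n p + sin t • J y (n p)) ∈ S := by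
  have f := s.fr hp
  obtain ⟨h, g, o, e1, e2⟩ := Ode.exists_sol h0 ⟪J y (n p), p⟫_ℝ
  set N := n p with hN
  set e : ℝ → E := fun t => cos t • N + sin t • J y N with he
  have de : ∀ t, HasDerivAt e (J y (e t)) t := fun t => by
    refine (((hasDerivAt_cos t).smul_const N).add ((hasDerivAt_sin t).smul_const _)).congr_deriv ?_
    rw [he, f.J_rot]
  have dJ : ∀ t, HasDerivAt (fun t => J y (e t)) (-e t) t := fun t =>
    ((J y).hasFDerivAt.comp_hasDerivAt t (de t)).congr_deriv (f.rot t).J_J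
  set X : ℝ → E := fun t => ⟪y, p⟫_ℝ • y + h t • e t + g t • J y (e t) with hX
  have Xe : ∀ t, ⟪X t, e t⟫_ℝ = h t := fun t => by
    have r : Fr y (e t) := f.rot t
    simp only [hX, inner_add_left, real_inner_smul_left, r.yn, r.nn,
      real_inner_comm (e t) (J y (e t)), self_J]
    ring
  have XJ : ∀ t, ⟪X t, J y (e t)⟫_ℝ = g t := fun t => by
    have r : Fr y (e t) := f.rot t
    simp only [hX, inner_add_left, real_inner_smul_left, r.jj, self_J, y_J]
    ring
  have e0 : e 0 = N := by simp [he]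
  have X0 : X 0 = p := by
    rw [hX]
    simp only [e0, e1, e2]
    rw [real_inner_comm N p]
    exact (f.expand p).symm
  have k := s.prop (Z := fun t => (X t, e t)) (μ := fun t => 2 / h t)
    (continuous_const.div o.ch fun t => (o.pos t).ne') (fun t => by
      refine ((((o.dh t).smul (de t)).const_add _ |>.add ((o.dg t).smul (dJ t))).prodMk
        (de t)).congr_deriv ?_
      have := (o.pos t).ne'
      simp only [V, Xe, Prod.smul_mk, smul_smul]
      refine Prod.ext ?_ ?_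
      · simp only; module
      · simp only; rw [show 2 / h t * (h t / 2) = 1 by field_simp, one_smul])
    (by simp only [X0, e0]; exact ⟨hp, rfl⟩)
  simp only at k
  obtain ⟨t, t', l1, l2, c1, c2⟩ := o.cross
  have Xr : ∀ t, X t = ⟪y, p⟫_ℝ • y + (h t * cos t - g t * sin t) • N +
      (h t * sin t + g t * cos t) • J y N := fun t => by
    simp only [hX, he, f.J_rot]; module
  have XX : X t' = X t := by rw [Xr, Xr, c1, c2]
  have ee' : e t' = e t := by rw [(k t').2, (k t).2, XX]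
  have cc : cos t' = cos t := by
    have := congrArg (fun v => ⟪N, v⟫_ℝ) ee'
    simpa only [he, inner_add_right, real_inner_smul_right, f.nn, self_J, mul_one, mul_zero,
      add_zero] using this
  have ss : sin t' = sin t := by
    have := congrArg (fun v => ⟪J y N, v⟫_ℝ) ee'
    simpa only [he, inner_add_right, real_inner_smul_right, f.jj, real_inner_comm N (J y N), self_J,
      mul_one, mul_zero, zero_add] using this
  have tt : t' = t + 2 * π := by
    have c : cos (t' - t - 2 * π) = 1 := by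
      rw [cos_sub_two_pi, cos_sub, cc, ss]; nlinarith [sin_sq_add_cos_sq t]
    have := (cos_eq_one_iff_of_lt_of_lt (by linarith [pi_pos]) (by linarith [pi_pos])).1 c
    linarith
  have pr := o.per (t0 := t) (by rw [← tt, ← Xe, ← Xe, XX, ee']) (by rw [← tt, ← XJ, ← XJ, XX, ee'])
  have Xc : ∀ t, X t = ⟪y, p⟫_ℝ • y + √2 • e t := fun t => by
    simp only [hX, (pr t).1, (pr t).2, zero_smul, add_zero]
  exact ⟨by rw [← e0, ← Xc, X0], fun t => Xc t ▸ (k t).1⟩

lemma cyl {p : E} (hp : p ∈ S) (h0 : 0 < ⟪p, n p⟫_ℝ) :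
    ‖p‖ ^ 2 - ⟪p, y⟫_ℝ ^ 2 = 2 ∧ ∀ x, ‖x‖ ^ 2 - ⟪x, y⟫_ℝ ^ 2 = 2 → x ∈ S := by
  have f := s.fr hp
  obtain ⟨h1, h2⟩ := s.circle hp h0
  have r2 : √2 * √2 = 2 := mul_self_sqrt (by norm_num)
  have r0 : (0 : ℝ) < √2 := by positivity
  constructor
  · rw [← real_inner_self_eq_norm_sq, h1]
    simp only [inner_add_left, inner_add_right, real_inner_smul_left, real_inner_smul_right, f.yy,
      f.nn, f.yn, f.ny]
    linear_combination r2
  · intro x hx
    have e := f.expand x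
    set a := ⟪n p, x⟫_ℝ
    set b := ⟪J y (n p), x⟫_ℝ
    have ab : a ^ 2 + b ^ 2 = 2 := by
      rw [← real_inner_self_eq_norm_sq, real_inner_comm y x] at hx
      have : ⟪x, x⟫_ℝ = ⟪y, x⟫_ℝ ^ 2 + a ^ 2 + b ^ 2 := by
        have := congrArg (fun v => ⟪v, x⟫_ℝ) e
        simp only [inner_add_left, real_inner_smul_left] at this
        rw [this]
        ring
      linarith
    have nz : ‖(⟨a, b⟩ : ℂ)‖ = √2 := by
      rw [Complex.norm_def, Complex.normSq_mk, ← ab]; congr 1; ring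
    have z0 : (⟨a, b⟩ : ℂ) ≠ 0 := norm_pos_iff.1 (nz ▸ r0)
    have c := Complex.cos_arg z0
    have sn := Complex.sin_arg (⟨a, b⟩ : ℂ)
    rw [nz] at c sn
    have m := s.inv _ (h2 (Complex.arg ⟨a, b⟩)) (⟪y, x⟫_ℝ - ⟪y, p⟫_ℝ)
    rw [c, sn] at m
    convert m using 1
    conv_lhs => rw [e]
    simp only [smul_add, smul_smul]
    rw [mul_div_cancel₀ _ r0.ne', mul_div_cancel₀ _ r0.ne']
    module

lemma cyl' {p : E} (hp : p ∈ S) (h0 : ⟪p, n p⟫_ℝ ≠ 0) :
    ‖p‖ ^ 2 - ⟪p, y⟫_ℝ ^ 2 = 2 ∧ ∀ x, ‖x‖ ^ 2 - ⟪x, y⟫_ℝ ^ 2 = 2 → x ∈ S := by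
  rcases h0.lt_or_gt with h | h
  · exact s.neg.cyl hp (by rw [inner_neg_right]; linarith)
  · exact s.cyl hp h

/-- classification -/
theorem cls : S = ∅ ∨ (∃ w : E, ‖w‖ = 1 ∧ ⟪w, y⟫_ℝ = 0 ∧ S = {x | ⟪x, w⟫_ℝ = 0}) ∨
    S = {x | ‖x‖ ^ 2 - ⟪x, y⟫_ℝ ^ 2 = 2} := by
  rcases S.eq_empty_or_nonempty with h | ⟨p0, hp0⟩
  · exact Or.inl h
  right
  by_cases hp : ∃ p ∈ S, ⟪p, n p⟫_ℝ = 0
  · obtain ⟨p, hp, h0⟩ := hp
    have f := s.fr hp
    have pl := fun x => s.plane hp h0 (x := x)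
    refine Or.inl ⟨n p, ?_, f.ny, Subset.antisymm (fun q hq => ?_) pl⟩
    · have := f.nn
      rw [real_inner_self_eq_norm_sq] at this
      exact (sq_eq_sq₀ (norm_nonneg _) zero_le_one).1 (by rw [this, one_pow])
    -- on the plane the normal is a multiple of `n p`
    have key : ∀ x, ⟪x, n p⟫_ℝ = 0 → n x = ⟪n p, n x⟫_ℝ • n p := fun x hx => by
      have a := (s.fr (pl x hx)).yn
      have b : ⟪n x, J y (n p)⟫_ℝ = 0 := s.toHs.perp_line fun u => pl _ (by
        rw [inner_add_left, real_inner_smul_left, real_inner_comm (n p) (J _ _), self_J, hx]; simp)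
      have e := f.expand (n x)
      rwa [a, real_inner_comm (n x) (J _ _), b, zero_smul, zero_smul, zero_add, add_zero] at e
    have ne : ∀ x, ⟪x, n p⟫_ℝ = 0 → ⟪n p, n x⟫_ℝ ≠ 0 := fun x hx h => by
      have := (s.fr (pl x hx)).nn
      rw [key x hx, h] at this
      simp at this
    by_cases h1 : ⟪q, n q⟫_ℝ = 0
    · have a : ⟪n 0, q⟫_ℝ = 0 := s.toHs.perp_line fun u => s.plane hq h1 (by
        rw [zero_add, real_inner_smul_left, h1, mul_zero])
      rw [key 0 (inner_zero_left _), real_inner_smul_left] at a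
      rw [mem_ofPred_eq, real_inner_comm]
      exact (mul_eq_zero.1 a).resolve_left (ne 0 (inner_zero_left _))
    · exfalso
      have cy := (s.cyl' hq h1).2
      have r2 : √2 * √2 = 2 := mul_self_sqrt (by norm_num)
      have r0 : (0 : ℝ) < √2 := by positivity
      have d : HasDerivAt (fun t => √2 • (cos t • n p + sin t • J y (n p)))
          (√2 • (-sin (π / 2) • n p + cos (π / 2) • J y (n p))) (π / 2) :=
        (((hasDerivAt_cos _).smul_const _).add ((hasDerivAt_sin _).smul_const _)).const_smul √2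
      have a := s.toHs.perp d (Eventually.of_forall fun t => cy _ (by
        rw [← real_inner_self_eq_norm_sq]
        simp only [real_inner_smul_left, real_inner_smul_right, (f.rot t).nn, (f.rot t).ny]
        linear_combination r2))
      simp only [sin_pi_div_two, cos_pi_div_two, zero_smul, one_smul, zero_add, add_zero, neg_smul,
        real_inner_smul_right, inner_neg_right] at a
      refine ne (√2 • J y (n p)) ?_ ?_
      · rw [real_inner_smul_left, real_inner_comm, self_J, mul_zero]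
      · rw [real_inner_comm]
        simpa [r0.ne'] using a
  · push Not at hp
    exact Or.inr (Subset.antisymm (fun q hq => (s.cyl' hq (hp q hq)).1) (s.cyl' hp0 (hp p0 hp0)).2)

end Cy

/-- the data of `Cy` for a shrinker in the sense of `Mv.IsShr` -/
theorem cy_of {F : Mv} (h : F.IsShr) {y : E} (hy : ‖y‖ = 1)
    (hi : ∀ x ∈ F.sl 0, ∀ t : ℝ, x + t • y ∈ F.sl 0) : Cy (F.sl 0) (fun x => F.n (x, 0)) y := by
  refine ⟨hs_of h.reg h.closed 0, by rw [real_inner_self_eq_norm_sq, hy, one_pow], fun x hx => ?_, hi⟩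
  obtain ⟨ν, h1, h2, h3⟩ := (hs_of h.reg h.closed 0).ext hx
  have cf : ContinuousWithinAt (Prod.fst : ST → E) F.M (x, 0) := continuous_fst.continuousWithinAt
  have t1 : Tendsto (Prod.fst : ST → E) (𝓝[F.M] (x, 0)) (𝓝[F.sl 0] x) :=
    cf.tendsto_nhdsWithin fun p hp => (h.st.mem p.1 p.2).1 hp
  have dn : ∀ a, DifferentiableWithinAt ℝ (F.nu a) F.M (x, 0) := fun a => by
    have d : DifferentiableAt ℝ (fun p : ST => ν p.1 a) (x, 0) :=
      (EuclideanSpace.proj (𝕜 := ℝ) a).differentiableAt.comp _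
        ((h1.differentiableAt (by simp)).comp (x, (0 : ℝ)) differentiableAt_fst)
    refine d.differentiableWithinAt.congr_of_eventuallyEq ?_ ?_
    · filter_upwards [t1.eventually h2] with p hp
      rw [Mv.nu, show F.n p = F.n (p.1, 0) from h.st.n_eq p.1 p.2, hp]
    · rw [Mv.nu, h3]
  set L : Fin 3 → E →L[ℝ] ℝ := fun a => (F.td (F.nu a) (x, 0)).comp (ContinuousLinearMap.inl ℝ E ℝ)
    with hL
  have dL : ∀ a, HasFDerivWithinAt (fun z => F.n (z, 0) a) (L a) (F.sl 0) x := fun a =>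
    HasFDerivWithinAt.comp (f := fun z : E => ((z, 0) : ST)) x (dn a).hasFDerivWithinAt
      (hasFDerivAt_prodMk_left x (0 : ℝ)).hasFDerivWithinAt fun z hz => hz
  refine ⟨∑ a, (L a).smulRight (ee a), ?_, ?_⟩
  · have := HasFDerivWithinAt.fun_sum (u := Finset.univ) fun a _ => (dL a).smul_const (ee a)
    refine this.congr (fun z _ => ?_) ?_ <;>
      exact (EuclideanSpace.basisFun (Fin 3) ℝ).sum_repr _ |>.symm.trans (by simp)
  · have e := h.eq (x, 0) hx
    simp only [Mv.shr, Mv.H, Mv.A, Mv.xn, Finset.sum_apply, sub_zero, Mv.D, Mv.pre, Mv.PL] at e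
    rw [← sub_eq_zero.1 e]
    refine Finset.sum_congr rfl fun a _ => ?_
    simp [hL, EuclideanSpace.inner_single_left, Pi.single_apply]

/-- **E2.** A shrinker whose normal is orthogonal to the unit vector `y` is empty, a plane
containing `y`, or the cylinder of radius `√2` with axis `ℝ y`. -/
theorem cls {F : Mv} (h : F.IsShr) {y : E} (hy : ‖y‖ = 1) (hn : ∀ p ∈ F.M, ⟪F.n p, y⟫_ℝ = 0) :
    F.sl 0 = ∅ ∨ (∃ w : E, ‖w‖ = 1 ∧ ⟪w, y⟫_ℝ = 0 ∧ F.sl 0 = {x | ⟪x, w⟫_ℝ = 0}) ∨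
      F.sl 0 = {x | ‖x‖ ^ 2 - ⟪x, y⟫_ℝ ^ 2 = 2} :=
  (cy_of h hy fun _ hx t => (hs_of h.reg h.closed 0).inv (fun z hz => hn (z, 0) hz) hx t).cls

end Crest.Agent.N250.Cls

end
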