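import Crest.Agent.N250.E.Law
import Crest.Agent.N250.E.Cls
import Crest.Agent.N250.E.PC
import Crest.Agent.N250.Lim.A

/-!
Row 250, block E (helper85): blow-ups of `√(-t) S` at `(y, 0)`; every direction is regular or
cylindrical.
-/

set_option autoImplicit false

open MeasureTheory Set Filter Topology
open scoped ContDiff InnerProductSpace
open Crest.GeometryTopology.MCF

noncomputable section

namespace Crest.Agent.N250.E.Bl

lemma sl_res {F : Mv} {J : Set ℝ} {t : ℝ} (ht : t ∈ J) : (F.res (univ ×ˢ J)).sl t = F.sl t := by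
  ext x; simp [Mv.sl, Mv.res, ht]

lemma mcf_res {F : Mv} (h : F.IsMCF) {Ω : Set ST} (o : IsOpen Ω) : (F.res Ω).IsMCF := by
  refine ⟨fun p hp => ?_, fun p hp => ?_⟩
  · obtain ⟨W, φ, hW, L⟩ := h.1 p hp.1
    refine ⟨W ∩ Ω, φ, ⟨hW, hp.2⟩, L.isOpen.inter o, L.sm.mono inter_subset_left,
      fun q hq => L.ne q hq.1, fun q hq => ?_, fun q hq hM => L.n_eq q hq.1 hM.1,
      fun q hq hM => L.V_eq q hq.1 hM.1⟩
    rw [← L.mem q hq.1]
    exact and_iff_left hq.2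
  · have e : (F.res Ω).H p = F.H p := by
      simp only [Mv.H, Mv.A, Finset.sum_apply, Mv.D, Mv.pre, Mv.td]
      refine Finset.sum_congr rfl fun a _ => ?_
      exact congrArg (fun L : ST →L[ℝ] ℝ => L (F.PL p (ee a), 0))
        (fderivWithin_inter (f := F.nu a) (o.mem_nhds hp.2))
    rw [e]
    exact h.2 p hp.1

/-- White's theorem for ancient flows -/
lemma white (hW : WhiteS) (Λ : ℝ) : ∃ ε c : ℝ, 0 < ε ∧ 0 < c ∧ ∀ (F : Mv) (X : ST) (r : ℝ),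
    Fl F (Iio 0) Λ → 0 < r → X.2 ≤ 0 → (∀ Y ∈ PC X r, F.Fg Y r ≤ 1 + ε) →
    ∀ p ∈ F.M ∩ PC X (r / 2), F.Reach p (c * r) := by
  obtain ⟨ε, c, hε, hc, H⟩ := hW Λ
  refine ⟨ε, c, hε, hc, fun F X r hF hr hX hg p hp => ?_⟩
  have r2 : 0 < r ^ 2 := by positivity
  have pJ : p.2 ∈ Ioo (X.2 - 3 * r ^ 2) 0 := ⟨by nlinarith [hp.2.2.1], hF.time p hp.1⟩
  have := H _ (X.2 - 3 * r ^ 2) 0 X r (fl_res hF isOpen_Ioo Ioo_subset_Iio_self
    (mcf_res hF.mcf (isOpen_univ.prod isOpen_Ioo))) hr (by linarith) hX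
    (fun Y hY => by
      have : Y.2 - r ^ 2 ∈ Ioo (X.2 - 3 * r ^ 2) 0 :=
        ⟨by linarith [hY.2.1], by linarith [hY.2.2]⟩
      rw [Mv.Fg, Fs_eq, sl_res this]
      exact hg Y hY) p ⟨⟨hp.1, mem_univ _, pJ⟩, hp.2⟩
  intro y hy
  exact this y (by rwa [sl_res pJ])

/-- monotonicity for every centre at a time `≤ 0` -/
lemma fg_mono (hH : HuiskenS) {F : Mv} {Λ : ℝ} (hF : Fl F (Iio 0) Λ) {Y : ST} (hY : Y.2 ≤ 0)
    {r s : ℝ} (hr : 0 < r) (hrs : r ≤ s) : F.Fg Y r ≤ F.Fg Y s := by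
  have r2 : 0 < r ^ 2 := by positivity
  have := (hH F _ Λ isOpen_Iio hF Y (Y.2 - s ^ 2) (Y.2 - r ^ 2) (by nlinarith) (by linarith)
    fun t ht => by have := ht.2; rw [mem_Iio]; linarith).1
  simpa only [sub_sub_cancel, Mv.Fg] using this

variable {S : Mv} {Λ : ℝ} {m : Md} {y : E}

lemma th_anti (hH : HuiskenS) (hS : Sh S Λ m) (y : E) {a b : ℝ} (ha : 0 < a) (hab : a ≤ b) :
    gA (S.sl 0) (b • y) 1 ≤ gA (S.sl 0) (a • y) 1 := by
  have hb := ha.trans_le hab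
  have := fg_mono hH hS.cl.fl (Y := (y, 0)) le_rfl (inv_pos.2 hb) (inv_anti₀ ha hab)
  rwa [unr_Fg hS.shr.st y (inv_pos.2 hb), unr_Fg hS.shr.st y (inv_pos.2 ha), inv_inv, inv_inv]
    at this

/-- the density at `(y, 0)` exists -/
theorem th_lim (hH : HuiskenS) (hS : Sh S Λ m) (y : E) :
    ∃ θ, Tendsto (fun lam : ℝ => gA (S.sl 0) (lam • y) 1) atTop (𝓝 θ) := by
  have a : Antitone fun lam : ℝ => gA (S.sl 0) (max lam 1 • y) 1 := fun a b hab =>
    th_anti hH hS y (lt_max_of_lt_right one_pos) (max_le_max_right 1 hab)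
  refine ⟨_, (tendsto_atTop_ciInf a ⟨0, ?_⟩).congr' ?_⟩
  · rintro _ ⟨t, rfl⟩
    exact gA_nonneg _ _ one_pos
  · filter_upwards [eventually_ge_atTop 1] with t ht
    rw [max_eq_left ht]

/-- **E1.** limits of the blow-ups -/
theorem blow (hP : ParaStmt) (hL : LimStmt) (hJ : ConvJetS) (hF : ConvFlS) (hS : Sh S Λ m) {θ : ℝ}
    (hθ : Tendsto (fun lam : ℝ => gA (S.sl 0) (lam • y) 1) atTop (𝓝 θ)) {α : Type}
    (l : Ultrafilter α) {lam : α → ℝ} (hl : Tendsto lam l atTop) :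
    ∃ S' : Mv, Sh S' Λ m ∧ Conv l (fun k => bl S y (lam k)) S'.unresc NT ∧
      gA (S'.sl 0) 0 1 = θ ∧ ∀ x ∈ S'.sl 0, ∀ τ : ℝ, x + τ • y ∈ S'.sl 0 := by
  have st := hS.shr.st
  have pos : ∀ᶠ k in (l : Filter α), 0 < lam k := hl.eventually (eventually_gt_atTop 0)
  have h1 : ∀ᶠ k in (l : Filter α), Cl (bl S y (lam k)) {t | t / lam k ^ 2 ∈ Iio 0} Λ m :=
    pos.mono fun k hk => hP _ _ Λ m y _ hk hS.cl
  have tk : ∀ K : ℝ, 0 < K → Tendsto (fun k => (bl S y (lam k)).Fg 0 K) l (𝓝 θ) := fun K hK =>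
    (hθ.comp (hl.atTop_div_const hK)).congr' (pos.mono fun k hk => (bl_Fg st y hk hK).symm)
  obtain ⟨S', hS', hc⟩ := hL α l _ _ Λ m h1
    (fun t ht => pos.mono fun k hk => div_neg_of_neg_of_pos ht (by positivity))
    fun K hK => by
      have hK0 : 0 < K := by linarith
      simpa using (tk K hK0).sub (tk K⁻¹ (inv_pos.2 hK0))
  have st' := hS'.shr.st
  refine ⟨S', hS', hc, ?_, fun x hx τ => ?_⟩
  · have := Lim.fg_tendsto hF (h1.mono fun k hk => hk.fl) hc (fun p hp => ⟨trivial, hp.1⟩) 0 one_pos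
    rw [unr_Fg st' 0 one_pos, smul_zero] at this
    exact tendsto_nhds_unique this (tk 1 one_pos)
  · obtain ⟨j1, j2⟩ := hJ α l _ _ _ hc
    have n1 : ∀ z : E, ((z, -1) : ST) ∈ NT := fun z => ⟨trivial, by norm_num⟩
    rw [← unr_sl_one st'] at hx ⊢
    obtain ⟨xk, t1, t2⟩ := j2 (x, -1) (n1 x) hx (fun _ => -1) tendsto_const_nhds
    have tm : Tendsto (fun k => 1 + τ / lam k) l (𝓝 1) := by
      simpa using (tendsto_const_nhds.div_atTop hl).const_add 1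
    refine (j1 (fun k => ((1 + τ / lam k) • xk k + τ • y, -(1 + τ / lam k) ^ 2)) (x + τ • y, -1)
      (n1 _) ?_ ?_).1
    · simpa using ((tm.smul t1).add_const (τ • y)).prodMk_nhds (tm.pow 2).neg
    · filter_upwards [pos, t2, tm.eventually (eventually_gt_nhds one_pos)] with k hk h2 h3
      have h4 := (bl_mem st y (xk k) hk one_pos).1 (by simpa using h2)
      rw [bl_mem st y _ hk h3, add_assoc, ← add_smul, smul_add, inv_smul_smul₀ h3.ne', smul_smul,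
        show (1 + τ / lam k)⁻¹ * (τ + lam k) = lam k by
          rw [inv_mul_eq_iff_eq_mul₀ h3.ne']; field_simp; ring]
      simpa using h4

/-- directions of density at most one are regular -/
theorem regular (hH : HuiskenS) (hC : FsContS) (hW : WhiteS) (hS : Sh S Λ m) {θ : ℝ}
    (hθ : Tendsto (fun lam : ℝ => gA (S.sl 0) (lam • y) 1) atTop (𝓝 θ)) (h1 : θ ≤ 1) :
    ∃ δ c R : ℝ, 0 < δ ∧ 0 < c ∧ ∀ x ∈ S.sl 0, R < ‖x‖ → dist (‖x‖⁻¹ • x) y < δ →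
      S.Reach (x, 0) (c * ‖x‖) := by
  have st := hS.shr.st
  obtain ⟨ε, c, hε, hc, H⟩ := white hW Λ
  obtain ⟨a, ha, a0⟩ := ((hθ.eventually (eventually_lt_nhds (show θ < 1 + ε by linarith))).and
    (eventually_gt_atTop 0)).exists
  set ρ := a⁻¹ with hρ
  have ρ0 : 0 < ρ := inv_pos.2 a0
  have ρ2 : 0 < ρ ^ 2 := by positivity
  have c0 := (hC _ _ Λ isOpen_Iio hS.cl.fl).continuousAt (x := (0 - ρ ^ 2, y, ρ ^ 2))
    ((isOpen_Iio.prod (isOpen_univ.prod isOpen_Ioi)).mem_nhds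
      ⟨sub_neg.2 ρ2, trivial, ρ2⟩)
  have c1 : ContinuousAt (fun Y : ST => S.unresc.Fg Y ρ) (y, 0) :=
    ContinuousAt.comp (f := fun Y : ST => (Y.2 - ρ ^ 2, Y.1, ρ ^ 2)) (x := (y, 0)) c0 (by fun_prop)
  have b0 : S.unresc.Fg (y, 0) ρ < 1 + ε := by rwa [unr_Fg st y ρ0, hρ, inv_inv]
  obtain ⟨δ, hδ, hb⟩ := Metric.eventually_nhds_iff_ball.1 (c1.eventually (eventually_lt_nhds b0))
  set r := min (min ρ δ) (1 / 2) with hr
  have r0 : 0 < r := lt_min (lt_min ρ0 hδ) (by norm_num)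
  have r1 : r ≤ ρ := (min_le_left _ _).trans (min_le_left _ _)
  have r2 : r ≤ δ := (min_le_left _ _).trans (min_le_right _ _)
  have r3 : r ≤ 1 / 2 := min_le_right _ _
  have W := H S.unresc (y, 0) r hS.cl.fl r0 le_rfl fun Y hY => by
    refine (fg_mono hH hS.cl.fl hY.2.2 r0 r1).trans (hb Y ?_).le
    rw [← ball_prod_same]
    refine ⟨Metric.ball_subset_ball r2 hY.1, ?_⟩
    have h2 := hY.2.1
    have h3 := hY.2.2
    simp only at h2 h3
    rw [Metric.mem_ball, Real.dist_eq, abs_lt]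
    constructor <;> nlinarith
  refine ⟨r / 2, c * r, 2 / r, by positivity, by positivity, fun x hx hR hd => ?_⟩
  have x0 : 0 < ‖x‖ := lt_trans (by positivity) hR
  have i0 : 0 < ‖x‖⁻¹ := inv_pos.2 x0
  have i1 : ‖x‖⁻¹ < r / 2 := by
    rw [inv_lt_comm₀ x0 (by positivity), inv_div]; exact hR
  have := W (‖x‖⁻¹ • x, -‖x‖⁻¹ ^ 2) ⟨(unr_mem' st _ i0).2 (by rwa [inv_smul_smul₀ i0.ne']), hd,
    by simp only; nlinarith, by simp only; nlinarith⟩
  rw [← unr_reach st x i0]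
  rwa [show ‖x‖⁻¹ * (c * r * ‖x‖) = c * r by field_simp]

lemma cyl_eq (hy : ‖y‖ = 1) : {x : E | ‖x‖ ^ 2 - ⟪x, y⟫_ℝ ^ 2 = 2} = EP.cyl y := by
  ext x
  rw [mem_ofPred_eq, real_inner_comm, ← EP.dz_sq hy]
  exact ⟨fun h => by rw [EP.cyl, mem_ofPred_eq, ← h, Real.sqrt_sq (EP.dz_nonneg y x)],
    fun h => by rw [show EP.dz y x = √2 from h, Real.sq_sqrt (by norm_num)]⟩

/-- directions of density larger than one: every blow-up limit is the cylinder -/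
theorem blow_cyl (hP : ParaStmt) (hL : LimStmt) (hJ : ConvJetS) (hF : ConvFlS) (hS : Sh S Λ m)
    (hy : ‖y‖ = 1) {θ : ℝ} (hθ : Tendsto (fun lam : ℝ => gA (S.sl 0) (lam • y) 1) atTop (𝓝 θ))
    (h1 : 1 < θ) {α : Type} (l : Ultrafilter α) {lam : α → ℝ} (hl : Tendsto lam l atTop) :
    ∃ S' : Mv, Sh S' Λ m ∧ Conv l (fun k => bl S y (lam k)) S'.unresc NT ∧
      gA (S'.sl 0) 0 1 = θ ∧ S'.sl 0 = EP.cyl y := by
  obtain ⟨S', hS', hc, e, hi⟩ := blow hP hL hJ hF hS hθ l hl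
  refine ⟨S', hS', hc, e, ?_⟩
  rcases (Cls.cy_of hS'.shr hy hi).cls with h | ⟨w, w1, -, h⟩ | h
  · rw [h, gA] at e
    simp at e
    linarith
  · have := gA_plane (w := w) (by rintro rfl; simp at w1)
    simp only [real_inner_comm _ w, ← h, e] at this
    linarith
  · rw [h, cyl_eq hy]

/-- **E3.** every direction is regular or cylindrical -/
theorem dich (hP : ParaStmt) (hL : LimStmt) (hH : HuiskenS) (hC : FsContS) (hJ : ConvJetS)
    (hF : ConvFlS) (hW : WhiteS) (hS : Sh S Λ m) (hy : ‖y‖ = 1) :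
    (∃ δ c R : ℝ, 0 < δ ∧ 0 < c ∧ ∀ x ∈ S.sl 0, R < ‖x‖ → dist (‖x‖⁻¹ • x) y < δ →
      S.Reach (x, 0) (c * ‖x‖)) ∨ EP.CylLim y (S.sl 0) := by
  obtain ⟨θ, hθ⟩ := th_lim hH hS y
  rcases le_or_gt θ 1 with h | h
  · exact Or.inl (regular hH hC hW hS hθ h)
  refine Or.inr fun lam hl => ?_
  have u : ((Ultrafilter.of atTop : Ultrafilter ℕ) : Filter ℕ) ≤ atTop := Ultrafilter.of_le _
  obtain ⟨S', hS', hc, -, e⟩ := blow_cyl hP hL hJ hF hS hy hθ h _ (hl.mono_left u)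
  refine ⟨_, _, _, NT, -1, inferInstance, u, fun x => ⟨trivial, by norm_num⟩,
    (unr_sl_one hS'.shr.st).trans e, ?_, hc⟩
  filter_upwards [(hl.mono_left u).eventually (eventually_gt_atTop 0)] with k hk
  simpa using bl_sl hS.shr.st y hk one_pos

end Crest.Agent.N250.E.Bl

end
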