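import Crest.Agent.N250.E.Cone
import Crest.Agent.N250.E.Blow
import Crest.Agent.N250.Tr.Inst

/-! Row 250, block E (helper28): assembly of `EStmt`. -/

set_option autoImplicit false
open MeasureTheory Set Filter Topology Metric
open scoped ContDiff RealInnerProductSpace
open Crest.GeometryTopology.MCF

noncomputable section

namespace Crest.Agent.N250.E

open EP (dz cyl CylLim)

variable {S : Mv} {Λ : ℝ} {m : Md}

theorem unr_jet (hS : S.Static) (hU : S.unresc.Reg) {a : ℝ} (ha : 0 < a) {x : E} (hx : x ∈ S.sl 0)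
    {k : ℕ} {C : ℝ} (h : S.unresc.NJet k C (a • x, -a ^ 2)) : S.NJet k (a ^ k * C) (x, 0) := by
  let s : Tr.Sim := ⟨0, LinearIsometryEquiv.refl ℝ E, fun _ => a, fun _ => -a ^ 2, univ⟩
  have hm : ∀ p : ST, s.map p = (a • p.1, -a ^ 2) := fun p => by simp [s, Tr.Sim.map]
  have e : ∀ z : E, a⁻¹ • a • z = z := fun z => by
    rw [smul_smul, inv_mul_cancel₀ ha.ne', one_smul]
  have hp : Tr.Pull s S.unresc S :=
    { ok := ⟨isOpen_univ, fun _ _ => ha, fun _ _ => contDiffAt_const, fun _ _ => contDiffAt_const⟩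
      mem := fun p => by
        rw [hm, unr_mem' hS _ ha, e]
        exact (hS.mem p.1 p.2).trans (and_iff_right (mem_univ p)).symm
      n_eq := fun p _ => by
        rw [hm, unr_n hS _ ha, e]
        exact hS.n_eq p.1 p.2
      V_eq := fun p _ => by simp [s, hS.V_eq] }
  exact (hp.nJet0 hU rfl (p := (x, 0)) hx).2 (by rw [hm]; exact h)

/-- Bernstein estimates read on `S` -/
theorem jets_of (hB : BernS) (hR : ReachAS) (k : ℕ) : ∃ C : ℝ, ∀ (S : Mv) (Λ : ℝ) (m : Md),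
    Sh S Λ m → ∀ x ∈ S.sl 0, ∀ a r : ℝ, 0 < a → 0 < r →
    (∀ z ∈ S.sl 0, ∀ μ : ℝ, a ≤ μ → μ < a + r → dist (μ • z) (a • x) < r →
      S.Reach (z, 0) (2 * r / μ)) → S.NJet k (a ^ k * (C / r ^ k)) (x, 0) := by
  obtain ⟨C, hC⟩ := hB k
  refine ⟨C, fun S Λ m hS x hx a r ha hr h => unr_jet hS.shr.st hS.cl.fl.mcf.1 ha hx ?_⟩
  have st := hS.shr.st
  have a2 : 0 < a ^ 2 := by positivity
  refine hC S.unresc (a • x, -a ^ 2) r hS.cl.fl.mcf hr
    (fun q hq hq' => hS.cl.fl.proper q hq ⟨trivial, ?_⟩) (fun p hp => ?_) _ ⟨?_, ?_, ?_, le_rfl⟩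
  · have := hq'.2.2
    change q.2 < 0
    linarith
  · obtain ⟨hM, h1, h2, h3⟩ := hp
    obtain ⟨y, t⟩ := p
    simp only at h1 h2 h3
    set μ := √(-t) with hμ
    have hμ2 : μ ^ 2 = -t := Real.sq_sqrt (by linarith)
    have hμ0 : 0 ≤ μ := Real.sqrt_nonneg _
    have h4 : a ≤ μ := (pow_le_pow_iff_left₀ ha.le hμ0 two_ne_zero).1 (by linarith)
    have h5 : μ < a + r := by
      by_contra hc
      push Not at hc
      nlinarith [mul_pos ha hr]
    have hμ1 : 0 < μ := ha.trans_le h4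
    have ht : t = -μ ^ 2 := by linarith
    rw [ht] at hM ⊢
    have e : μ • μ⁻¹ • y = y := by rw [smul_smul, mul_inv_cancel₀ hμ1.ne', one_smul]
    have h6 := h _ ((unr_mem' st y hμ1).1 hM) μ h4 h5 (by rw [e]; exact h1)
    have h7 := (unr_reach st _ hμ1 _).2 h6
    rw [e, mul_div_cancel₀ _ hμ1.ne'] at h7
    refine ((hR _ hS.cl.fl.mcf.1 _ hM _ (by positivity) h7).2).trans ?_
    rw [div_le_div_iff₀ (by positivity) (by positivity)]
    nlinarith [sq_nonneg r]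
  · rw [unr_mem' st _ ha, smul_smul, inv_mul_cancel₀ ha.ne', one_smul]; exact hx
  · exact mem_ball_self (by positivity)
  · have : 0 < (r / 2) ^ 2 := by positivity
    linarith

theorem s_unit (hS : Sh S Λ m) {x : E} (hx : x ∈ S.sl 0) : ‖S.n (x, 0)‖ = 1 :=
  Tr.n_unit hS.shr.reg hx

/-- the quantitative multiplicity one theorem read on `S` -/
theorem astar_S (hS : Sh S Λ m) (R : ℝ) (y : E)
    (h : gA (S.sl 0) ((m.L R)⁻¹ • y) 1 - gA (S.sl 0) (m.L R • y) 1 < m.η R) :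
    ∀ x ∈ S.sl 0, dist x y < R → S.Reach (x, 0) (m.c R) := by
  intro x hx hd
  have st := hS.shr.st
  have hL : 0 < m.L R := one_pos.trans_le (m.L_ge R)
  have := hS.cl.as R y 1 one_pos (by
    change _ < (0 : ℝ)
    rw [neg_lt_zero]; positivity) (by
    rw [mul_one, unr_Fg st y hL, unr_Fg st y (by positivity), one_div, inv_inv]; exact h) x
    (by rw [unr_mem' st _ one_pos]; simpa using hx) (by rwa [mul_one])
  rw [← unr_reach st x one_pos, one_smul, mul_comm]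
  exact this

theorem regDir_open {y : E} (h : RegDir S y) : ∀ᶠ y' in 𝓝 y, RegDir S y' := by
  obtain ⟨δ, c, R, hδ, hc, H⟩ := h
  filter_upwards [ball_mem_nhds y (half_pos hδ)] with y' hy'
  refine ⟨δ / 2, c, R, half_pos hδ, hc, fun x hx hR hd => H x hx hR ?_⟩
  have := dist_triangle (‖x‖⁻¹ • x) y' y
  rw [mem_ball] at hy'
  linarith

theorem sing_finite (hA : Av (S.sl 0))
    (hD : ∀ y : E, ‖y‖ = 1 → RegDir S y ∨ CylLim y (S.sl 0)) :
    {y : E | ‖y‖ = 1 ∧ ¬RegDir S y}.Finite := by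
  have hc : IsCompact {y : E | ‖y‖ = 1 ∧ ¬RegDir S y} := by
    have h1 : IsClosed {y : E | ¬RegDir S y} := by
      rw [← isOpen_compl_iff, isOpen_iff_mem_nhds]
      intro y hy
      filter_upwards [regDir_open (not_not.1 hy)] with y' hy' h using h hy'
    exact ((isCompact_sphere (0 : E) 1).inter_right h1).of_isClosed_subset
      ((isClosed_eq continuous_norm continuous_const).inter h1) fun y hy => ⟨by simpa using hy.1, hy.2⟩
  refine hc.induction_on (p := fun A => A.Finite) finite_empty (fun _ _ h h' => h'.subset h)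
    (fun _ _ => Finite.union) fun y hy => ⟨{y}, ?_, finite_singleton y⟩
  obtain ⟨δ, hδ, H⟩ := isolated kurS hA hy.1 ((hD y hy.1).resolve_left hy.2)
  filter_upwards [self_mem_nhdsWithin, mem_nhdsWithin_of_mem_nhds (ball_mem_nhds y hδ)]
    with y' h1 h2 using H y' h1.1 h2 ((hD y' h1.1).resolve_left h1.2)

theorem unif_reg (hS : Sh S Λ m) {K : Set E} (hK : IsCompact K) (h : ∀ y ∈ K, RegDir S y) :
    ∃ δ c R : ℝ, 0 < δ ∧ 0 < c ∧ ∀ x ∈ S.sl 0, R < ‖x‖ → ∀ a ∈ K, dist (‖x‖⁻¹ • x) a < δ →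
      S.Reach (x, 0) (c * ‖x‖) := by
  refine hK.induction_on (p := fun K => ∃ δ c R : ℝ, 0 < δ ∧ 0 < c ∧ ∀ x ∈ S.sl 0, R < ‖x‖ →
    ∀ a ∈ K, dist (‖x‖⁻¹ • x) a < δ → S.Reach (x, 0) (c * ‖x‖))
    ⟨1, 1, 0, one_pos, one_pos, fun _ _ _ _ h => h.elim⟩ ?_ ?_ ?_
  · rintro s t hst ⟨δ, c, R, hδ, hc, H⟩
    exact ⟨δ, c, R, hδ, hc, fun x hx hR a ha => H x hx hR a (hst ha)⟩
  · rintro s t ⟨δ, c, R, hδ, hc, H⟩ ⟨δ', c', R', hδ', hc', H'⟩
    refine ⟨min δ δ', min c c', max R R', lt_min hδ hδ', lt_min hc hc', fun x hx hR a ha hd => ?_⟩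
    rcases ha with ha | ha
    · exact reach_mono (s_unit hS hx) (H x hx ((le_max_left _ _).trans_lt hR) a ha
        (hd.trans_le (min_le_left _ _))) (by gcongr; exact min_le_left _ _)
    · exact reach_mono (s_unit hS hx) (H' x hx ((le_max_right _ _).trans_lt hR) a ha
        (hd.trans_le (min_le_right _ _))) (by gcongr; exact min_le_right _ _)
  · intro y hy
    obtain ⟨δ, c, R, hδ, hc, H⟩ := h y hy
    refine ⟨ball y (δ / 2), mem_nhdsWithin_of_mem_nhds (ball_mem_nhds y (half_pos hδ)), δ / 2, c, R,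
      half_pos hδ, hc, fun x hx hR a ha hd => H x hx hR ?_⟩
    have := dist_triangle (‖x‖⁻¹ • x) a y
    rw [mem_ball] at ha
    linarith

theorem dir_close {z a : E} (ha : ‖a‖ = 1) (hz : z ≠ 0) : dist (‖z‖⁻¹ • z) a ≤ 2 * dist z a := by
  have h0 : 0 < ‖z‖ := norm_pos_iff.2 hz
  have h1 := dist_triangle (‖z‖⁻¹ • z) z a
  have h2 : dist (‖z‖⁻¹ • z) z = |1 - ‖z‖| := by
    rw [dist_eq_norm, show ‖z‖⁻¹ • z - z = (‖z‖⁻¹ * (1 - ‖z‖)) • z by
      rw [mul_sub, inv_mul_cancel₀ h0.ne', mul_one, sub_smul, one_smul], norm_smul,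
      Real.norm_eq_abs, abs_mul, abs_inv, abs_norm]
    field_simp
  have h3 := abs_norm_sub_norm_le a z
  rw [ha, ← dist_eq_norm, dist_comm] at h3
  linarith

/-- conical jets -/
theorem con_jets (hB : BernS) (hR : ReachAS) (hS : Sh S Λ m) {K : Set E} (hK : ∀ a ∈ K, ‖a‖ = 1)
    {δ c R : ℝ} (hδ : 0 < δ) (hc : 0 < c) (hR0 : 1 ≤ R)
    (H : ∀ x ∈ S.sl 0, R < ‖x‖ → ∀ a ∈ K, dist (‖x‖⁻¹ • x) a < δ → S.Reach (x, 0) (c * ‖x‖))
    (k : ℕ) : ∃ C : ℝ, ∀ x ∈ S.sl 0, 4 * R < ‖x‖ → ‖x‖⁻¹ • x ∈ K →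
      S.NJet k (C / ‖x‖ ^ k) (x, 0) := by
  obtain ⟨C, hC⟩ := jets_of hB hR k
  set r := min (min (δ / 2) (c / 4)) (4 * R)⁻¹ with hr
  have hr0 : 0 < r := by positivity
  have r1 : r ≤ δ / 2 := (min_le_left _ _).trans (min_le_left _ _)
  have r2 : r ≤ c / 4 := (min_le_left _ _).trans (min_le_right _ _)
  have r3 : r ≤ (4 * R)⁻¹ := min_le_right _ _
  have r4 : (4 * R)⁻¹ * R = 1 / 4 := by field_simp
  have r5 : (4 * R)⁻¹ ≤ 1 / 4 := by
    rw [one_div]; exact inv_anti₀ (by norm_num) (by linarith)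
  refine ⟨C / r ^ k, fun x hx hxR hxK => ?_⟩
  have x0 : 0 < ‖x‖ := by linarith
  have := hC S Λ m hS x hx ‖x‖⁻¹ r (inv_pos.2 x0) hr0 fun z hz μ h1 h2 h3 => ?_
  · rwa [inv_pow, inv_mul_eq_div] at this
  have μ0 : 0 < μ := (inv_pos.2 x0).trans_le h1
  have h4 : ‖x‖⁻¹ ≤ (4 * R)⁻¹ := inv_anti₀ (by linarith) hxR.le
  have h5 : 1 / 2 < μ * ‖z‖ := by
    have := abs_norm_sub_norm_le (‖x‖⁻¹ • x) (μ • z)
    rw [hK _ hxK, ← dist_eq_norm, dist_comm, norm_smul, Real.norm_eq_abs, abs_of_pos μ0,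
      abs_le] at this
    linarith [this.2]
  have h6 : R < ‖z‖ := by
    by_contra hcon
    push Not at hcon
    have : μ * ‖z‖ ≤ (2 * (4 * R)⁻¹) * R := by gcongr; linarith
    linarith
  have z0 : 0 < ‖z‖ := by linarith
  have h7 := dir_close (hK _ hxK) (smul_ne_zero μ0.ne' (norm_pos_iff.1 z0))
  have e : ‖μ • z‖⁻¹ • μ • z = ‖z‖⁻¹ • z := by
    rw [smul_smul, norm_smul, Real.norm_eq_abs, abs_of_pos μ0]
    congr 1; field_simp
  rw [e] at h7
  refine reach_mono (s_unit hS hz) (H z hz h6 _ hxK (by linarith)) ?_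
  rw [div_le_iff₀ μ0]
  nlinarith

theorem eStmt_core (hA : AvoidS) (hB : BernS) (hR : ReachAS) (hD : DichS) (hT : ThS) : EStmt := by
  intro S Λ m hS
  have av := av_of hA hS
  have fin := sing_finite av (hD S Λ m hS)
  obtain ⟨p, e, he⟩ := fin.fin_param
  obtain ⟨einj, er⟩ := he
  have emem : ∀ j, ‖e j‖ = 1 ∧ ¬RegDir S (e j) := fun j => by
    have : e j ∈ range e := mem_range_self j
    rw [er] at this; exact this
  have ecyl : ∀ j, CylLim (e j) (S.sl 0) := fun j =>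
    (hD S Λ m hS _ (emem j).1).resolve_left (emem j).2
  choose Q hQ using fun j => exists_Q (emem j).1
  choose εc Rc hεc hc using fun j => clean kurS av (emem j).1 (ecyl j)
  choose Rt r rsm rper rnear rlim rtube using fun j =>
    tubeS (Q j) (S.sl 0) (by rw [hQ]; exact ecyl j)
  -- the slope
  obtain ⟨ε, ⟨h1, h2, h3⟩, ε0⟩ : ∃ ε : ℝ, (ε ≤ 1 ∧ (∀ j, ε ≤ εc j) ∧
      ∀ i j, i ≠ j → 4 * ε < dist (e i) (e j)) ∧ 0 < ε := by
    refine (Eventually.and (f := 𝓝[>] (0 : ℝ)) (mem_nhdsWithin_of_mem_nhds ?_)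
      self_mem_nhdsWithin).exists
    refine (eventually_le_nhds one_pos).and ((eventually_all.2 fun j =>
      eventually_le_nhds (hεc j)).and (eventually_all.2 fun i => eventually_all.2 fun j => ?_))
    by_cases hij : i = j
    · exact Eventually.of_forall fun _ h => absurd hij h
    · have : 0 < dist (e i) (e j) / 4 := by
        have := dist_pos.2 (einj.ne hij); positivity
      filter_upwards [eventually_lt_nhds this] with ε h _
      linarith
  -- the conical directions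
  set K : Set E := {a | ‖a‖ = 1 ∧ ∀ j, ε * ⟪e j, a⟫ ≤ dz (e j) a} with hKdef
  have hK : IsCompact K := by
    have h1 : IsClosed (⋂ j, {a : E | ε * ⟪e j, a⟫ ≤ dz (e j) a}) :=
      isClosed_iInter fun j => isClosed_le (by fun_prop) (continuous_dz _)
    have e1 : K = sphere (0 : E) 1 ∩ ⋂ j, {a : E | ε * ⟪e j, a⟫ ≤ dz (e j) a} := by
      ext y; simp [hKdef]
    rw [e1]
    exact (isCompact_sphere (0 : E) 1).inter_right h1
  have hKreg : ∀ a ∈ K, RegDir S a := fun a ha => by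
    by_contra hn
    have : a ∈ range e := by rw [er]; exact ⟨ha.1, hn⟩
    obtain ⟨j, rfl⟩ := this
    have h4 := ha.2 j
    have h5 := dz_sq ha.1 (e j)
    rw [real_inner_self_eq_norm_sq, ha.1] at h4 h5
    nlinarith
  obtain ⟨δ, c, R0, hδ, c0, H⟩ := unif_reg hS hK hKreg
  have H' : ∀ x ∈ S.sl 0, max R0 1 < ‖x‖ → ∀ a ∈ K, dist (‖x‖⁻¹ • x) a < δ →
      S.Reach (x, 0) (c * ‖x‖) := fun x hx h => H x hx ((le_max_left _ _).trans_lt h)
  have hdir : ∀ x : E, 0 < ‖x‖ → (∀ j, (Q j).symm x ∉ cone0 ε) → ‖x‖⁻¹ • x ∈ K := by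
    intro x hx h
    refine ⟨by rw [norm_smul, norm_inv, norm_norm, inv_mul_cancel₀ hx.ne'], fun j => ?_⟩
    have := h j
    rw [mem_cone0, hQ, not_le] at this
    rw [inner_smul_right, dz_smul _ _ (inv_pos.2 hx).le, mul_left_comm]
    exact mul_le_mul_of_nonneg_left this.le (inv_pos.2 hx).le
  -- small density drop along the axes
  have hdrop : ∀ j, ∀ᶠ s : ℝ in atTop, gA (S.sl 0) ((m.L 3)⁻¹ • s • e j) 1 -
      gA (S.sl 0) (m.L 3 • s • e j) 1 < m.η 3 := fun j => by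
    obtain ⟨θ, hθ⟩ := hT S Λ m hS (e j)
    have hL : 0 < m.L 3 := one_pos.trans_le (m.L_ge 3)
    have t1 := hθ.comp (tendsto_id.const_mul_atTop (inv_pos.2 hL))
    have t2 := hθ.comp (tendsto_id.const_mul_atTop hL)
    have := (t1.sub t2).eventually (eventually_lt_nhds (show θ - θ < m.η 3 by
      simpa using m.η_pos 3))
    simpa only [Function.comp, id, smul_smul] using this
  choose Rd hRd using fun j => eventually_atTop.1 (hdrop j)
  obtain ⟨R, g1, g2, g3, g4, g5⟩ : ∃ R : ℝ, 4 * max R0 1 ≤ R ∧ 3 / ε ≤ R ∧ (∀ j, Rc j ≤ R) ∧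
      (∀ j, Rt j ≤ R) ∧ ∀ j, Rd j ≤ R :=
    ((eventually_ge_atTop _).and ((eventually_ge_atTop _).and
      ((eventually_all.2 fun j => eventually_ge_atTop _).and
      ((eventually_all.2 fun j => eventually_ge_atTop _).and
      (eventually_all.2 fun j => eventually_ge_atTop _))))).exists
  have m1 : 1 ≤ max R0 1 := le_max_right _ _
  have hclean : ∀ j, ∀ x ∈ S.sl 0, R ≤ ⟪e j, x⟫ → dz (e j) x ≤ ε * ⟪e j, x⟫ → dz (e j) x < 2 :=
    fun j x hx ha hb => hc j x hx ((g3 j).trans ha)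
      (hb.trans (mul_le_mul_of_nonneg_right (h2 j) (by linarith)))
  have reach : ∀ x ∈ S.sl 0, R < ‖x‖ → (∀ j, (Q j).symm x ∉ cone0 ε) →
      S.Reach (x, 0) (c * ‖x‖) := fun x hx ha hb =>
    H' x hx (by linarith) _ (hdir x (by linarith) hb) (by simpa using hδ)
  have reach0 : ∃ ρ : ℝ, 0 < ρ ∧ ∀ x ∈ S.sl 0, S.Reach (x, 0) ρ := by
    refine ⟨min (min (m.c (2 * R + 1)) (m.c 3)) c, lt_min (lt_min (m.c_pos _) (m.c_pos _)) c0,
      fun x hx => ?_⟩
    by_cases ha : ‖x‖ ≤ 2 * R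
    · refine reach_mono (s_unit hS hx) (astar_S hS (2 * R + 1) 0 (by simpa using m.η_pos _) x hx
        (by rw [dist_zero_right]; linarith)) ((min_le_left _ _).trans (min_le_left _ _))
    push Not at ha
    by_cases hb : ∀ j, (Q j).symm x ∉ cone0 ε
    · refine reach_mono (s_unit hS hx) (reach x hx (by linarith) hb) ((min_le_right _ _).trans ?_)
      nlinarith
    push Not at hb
    obtain ⟨j, hj⟩ := hb
    rw [mem_cone0, hQ] at hj
    have i0 : 0 ≤ ⟪e j, x⟫ := by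
      by_contra hcon
      push Not at hcon
      nlinarith [dz_nonneg (e j) x]
    have i1 := norm_le_dz (emem j).1 x
    rw [abs_of_nonneg i0] at i1
    have i2 : R ≤ ⟪e j, x⟫ := by nlinarith
    have i3 := hclean j x hx i2 hj
    refine reach_mono (s_unit hS hx) (astar_S hS 3 (⟪e j, x⟫ • e j) (hRd j _ ((g5 j).trans i2))
      x hx ?_) ((min_le_left _ _).trans (min_le_right _ _))
    rw [dist_eq_norm]
    change dz (e j) x < 3
    linarith
  refine ⟨⟨p, Q, ε, R, r, ε0, h1, by rwa [div_le_iff₀ ε0, mul_comm] at g2, ?_,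
    fun j => (rsm j).mono fun q hq => (g4 j).trans_lt hq, rper,
    fun j q hq => rnear j q ((g4 j).trans_lt hq), rlim, ?_, ⟨c, c0, reach⟩, ?_, reach0, ?_⟩⟩
  · intro i j hij x hx ha hb
    rw [mem_cone0, hQ] at ha hb
    linarith [axes_close (emem i).1 (emem j).1 ε0 hx ha hb, h3 i j hij]
  · intro j x hx hR
    have hRt : Rt j < x 0 := (g4 j).trans_lt hR
    constructor
    · intro h
      refine (rtube j x hRt ?_).1 h
      have a1 := inner_Q (Q j) x
      have a2 := dz_Q (Q j) x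
      rw [hQ] at a1 a2
      rw [← a2]
      exact (hclean j _ h (by rw [a1]; exact hR.le) (by rw [a1, a2]; exact hx)).le
    · rintro ⟨θ, hθ⟩
      refine (rtube j x hRt ?_).2 ⟨θ, hθ⟩
      obtain ⟨b1, b2⟩ := rnear j (x 0, θ) hRt
      have c1 : x 1 = r j (x 0, θ) * Real.cos θ := by
        conv_lhs => rw [hθ]
        rfl
      have c2 : x 2 = r j (x 0, θ) * Real.sin θ := by
        conv_lhs => rw [hθ]
        rfl
      rw [c1, c2, Real.sqrt_le_iff]
      refine ⟨by norm_num, ?_⟩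
      rw [mul_pow, mul_pow, ← mul_add, Real.cos_sq_add_sin_sq]
      nlinarith
  · intro k
    obtain ⟨C, hC⟩ := con_jets hB hR hS (fun a ha => ha.1) hδ c0 m1 H' k
    exact ⟨C, fun x hx ha hb => hC x hx (by linarith) (hdir x (by linarith) hb)⟩
  · intro k
    obtain ⟨ρ, ρ0, hρ⟩ := reach0
    obtain ⟨C, hC⟩ := jets_of hB hR k
    refine ⟨_, fun x hx => hC S Λ m hS x hx 1 (ρ / 2) one_pos (half_pos ρ0) fun z hz μ a1 _ _ =>
      reach_mono (s_unit hS hz) (hρ z hz) ?_⟩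
    rw [div_le_iff₀ (by linarith)]
    nlinarith

/-- BLOCK E from the toolbox -/
theorem eStmt_of (hL : LimStmt) (hH : HuiskenS) (hC : FsContS) (hJ : ConvJetS) (hF : ConvFlS)
    (hW : WhiteS) (hA : AvoidS) (hB : BernS) (hR : ReachAS) : EStmt :=
  eStmt_core hA hB hR (fun _ _ _ hS _ hy => Bl.dich Tr.paraStmt hL hH hC hJ hF hW hS hy)
    fun _ _ _ hS y => Bl.th_lim hH hS y

end Crest.Agent.N250.E

end
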