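import Mathlib
import Crest.Prelude.Def_MeanCurvatureFlow

/-! Row 250, block E: the ball test on a level set / self-shrinker, and static sphere avoidance
for the flow `√(-t) S`. Representation free. -/

set_option autoImplicit false
noncomputable section
open Crest.GeometryTopology.MCF Filter Topology Metric Set
open scoped ContDiff RealInnerProductSpace

namespace Crest.Agent.N250.E

/-- necessary second order condition at a local minimum -/
theorem av_second {f f' : ℝ → ℝ} {c : ℝ} (hm : IsLocalMin f 0)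
    (h1 : ∀ᶠ θ in 𝓝 (0:ℝ), HasDerivAt f (f' θ) θ) (h2 : HasDerivAt f' c 0) : f' 0 = 0 ∧ 0 ≤ c := by
  have h0 : HasDerivAt f (f' 0) 0 := h1.self_of_nhds
  have e0 : f' 0 = 0 := hm.hasDerivAt_eq_zero h0
  refine ⟨e0, ?_⟩
  by_contra hc
  push Not at hc
  have hd : deriv f =ᶠ[𝓝 0] f' := h1.mono fun θ h => h.deriv
  have hdd : deriv (deriv f) 0 = c := by rw [hd.deriv_eq, h2.deriv]
  have hM : IsLocalMax f 0 :=
    isLocalMax_of_deriv_deriv_neg (by rw [hdd]; exact hc) (by rw [h0.deriv, e0]) h0.continuousAt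
  have hcst : f =ᶠ[𝓝 0] fun _ => f 0 := (hm.and hM).mono fun θ h => le_antisymm h.2 h.1
  have : deriv f =ᶠ[𝓝 0] fun _ => (0:ℝ) := by
    filter_upwards [hcst.deriv] with θ h
    simpa using h
  rw [this.deriv_eq] at hdd
  simp at hdd
  linarith

theorem av_grad_contDiffAt {ψ : E → ℝ} {x : E} (h : ContDiffAt ℝ ∞ ψ x) :
    ContDiffAt ℝ ∞ (gradient ψ) x := by
  have h1 : ContDiffAt ℝ ∞ (fderiv ℝ ψ) x := h.fderiv_right (by simp)
  exact ((InnerProductSpace.toDual ℝ E).symm.contDiff.contDiffAt).comp x h1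

/-- the level set mean curvature in an orthonormal basis adapted to the normal -/
theorem av_H {ψ : E → ℝ} {x : E} (h : ContDiffAt ℝ ∞ ψ x) (hg : gradient ψ x ≠ 0)
    (b : OrthonormalBasis (Fin 3) ℝ E) (a : ℝ) (hb : gradient ψ x = a • b 0) :
    levelSetMeanCurv (fun p => ψ p.1) x 0 =
      ‖gradient ψ x‖⁻¹ * (⟪b 1, fderiv ℝ (gradient ψ) x (b 1)⟫ +
        ⟪b 2, fderiv ℝ (gradient ψ) x (b 2)⟫) := by
  have hG : HasFDerivAt (gradient ψ) (fderiv ℝ (gradient ψ) x) x :=
    ((av_grad_contDiffAt h).differentiableAt (by simp)).hasFDerivAt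
  set G := fderiv ℝ (gradient ψ) x
  have hn : DifferentiableAt ℝ (fun y => ‖gradient ψ y‖⁻¹) x :=
    (hG.differentiableAt.norm ℝ hg).inv (norm_ne_zero_iff.2 hg)
  have hN := hn.hasFDerivAt.smul hG
  set L := fderiv ℝ (fun y => ‖gradient ψ y‖⁻¹) x
  have hN' : HasFDerivAt (fun y => ‖gradient ψ y‖⁻¹ • gradient ψ y)
      (‖gradient ψ x‖⁻¹ • G + L.smulRight (gradient ψ x)) x := hN
  have hunit : (fun y => ⟪‖gradient ψ y‖⁻¹ • gradient ψ y, ‖gradient ψ y‖⁻¹ • gradient ψ y⟫)
      =ᶠ[𝓝 x] fun _ => (1:ℝ) := by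
    filter_upwards [hG.continuousAt.eventually_ne hg] with y hy
    rw [real_inner_self_eq_norm_sq, norm_smul, norm_inv, norm_norm,
      inv_mul_cancel₀ (norm_ne_zero_iff.2 hy)]; norm_num
  have hd := (hN'.inner ℝ hN').congr_of_eventuallyEq hunit.symm
  have hz := hd.unique (hasFDerivAt_const (1:ℝ) x)
  have hz0 := congrArg (fun T => T (b 0)) hz
  have ha : a ≠ 0 := by rintro rfl; simp at hb; exact hg hb
  have e : levelSetMeanCurv (fun p => ψ p.1) x 0 =
      LinearMap.trace ℝ E (‖gradient ψ x‖⁻¹ • G + L.smulRight (gradient ψ x)).toLinearMap := by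
    unfold levelSetMeanCurv gradX
    rw [← hN'.fderiv]
  rw [e, LinearMap.trace_eq_sum_inner _ b, Fin.sum_univ_three]
  have h10 : ⟪b 1, gradient ψ x⟫ = 0 := by
    rw [hb, inner_smul_right, b.inner_eq_zero (by decide)]; simp
  have h20 : ⟪b 2, gradient ψ x⟫ = 0 := by
    rw [hb, inner_smul_right, b.inner_eq_zero (by decide)]; simp
  set T := ‖gradient ψ x‖⁻¹ • G + L.smulRight (gradient ψ x) with hT
  have h00 : ⟪b 0, T (b 0)⟫ = 0 := by
    simp only [ContinuousLinearMap.comp_apply, ContinuousLinearMap.prod_apply,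
      fderivInnerCLM_apply, zero_apply] at hz0
    rw [real_inner_comm, ← two_mul] at hz0
    have h3 : ⟪T (b 0), ‖gradient ψ x‖⁻¹ • gradient ψ x⟫ = 0 := by linarith
    rw [hb, smul_smul, inner_smul_right] at h3
    rw [real_inner_comm]
    refine (mul_eq_zero.1 h3).resolve_left (mul_ne_zero (inv_ne_zero ?_) ha)
    rw [← hb]; exact norm_ne_zero_iff.2 hg
  have e0 : ⟪b 0, T.toLinearMap (b 0)⟫ = 0 := h00
  rw [e0]
  simp only [hT, ContinuousLinearMap.toLinearMap_add, LinearMap.add_apply,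
    ContinuousLinearMap.coe_coe, smul_apply, ContinuousLinearMap.smulRight_apply,
    inner_add_right, inner_smul_right, h10, h20]
  ring

/-- BALL TEST on a regular level set: if `x` minimises the distance to `q` among the zeros of `ψ` near
`x`, then `x - q` is normal and `H ⟪n, x-q⟫ ≤ 2`. -/
theorem level_test {ψ : E → ℝ} {U : Set E} (hU : IsOpen U) {x q : E} (hx : x ∈ U)
    (hψ : ContDiffOn ℝ ∞ ψ U) (hg : gradient ψ x ≠ 0) (h0 : ψ x = 0) (hq : x ≠ q)
    (hmin : ∀ y ∈ U, ψ y = 0 → ‖x - q‖ ≤ ‖y - q‖) :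
    x - q = ⟪‖gradient ψ x‖⁻¹ • gradient ψ x, x - q⟫ • (‖gradient ψ x‖⁻¹ • gradient ψ x) ∧
      levelSetMeanCurv (fun p => ψ p.1) x 0 * ⟪‖gradient ψ x‖⁻¹ • gradient ψ x, x - q⟫ ≤ 2 := by
  set d := ‖x - q‖ with hd
  have hd0 : 0 < d := norm_pos_iff.2 (sub_ne_zero.2 hq)
  obtain ⟨ε, hε, hεU⟩ := Metric.isOpen_iff.1 hU x hx
  -- a sign
  obtain ⟨s, hs2, hs⟩ : ∃ s : ℝ, s * s = 1 ∧ ∀ y ∈ ball x ε ∩ ball q d, 0 < s * ψ y := by
    have hc : IsPreconnected (ball x ε ∩ ball q d) :=
      ((convex_ball x ε).inter (convex_ball q d)).isPreconnected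
    have hcont : ContinuousOn ψ (ball x ε ∩ ball q d) :=
      hψ.continuousOn.mono fun y hy => hεU hy.1
    have hne : ∀ y ∈ ball x ε ∩ ball q d, ψ y ≠ 0 := fun y hy h => by
      have h1 := hmin y (hεU hy.1) h
      have h2 := hy.2
      rw [mem_ball, dist_eq_norm] at h2
      linarith
    rcases hc.mapsTo_Ioi_or_Iio hcont hne with h | h
    · exact ⟨1, by ring, fun y hy => by simpa using h hy⟩
    · exact ⟨-1, by ring, fun y hy => by simpa using h hy⟩
  have hs' : ∀ y ∈ ball x ε ∩ closedBall q d, 0 ≤ s * ψ y := by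
    intro y hy
    have h1 : y ∈ closure (ball x ε ∩ ball q d) := by
      apply isOpen_ball.inter_closure
      rw [closure_ball q hd0.ne']; exact hy
    have h2 : ContinuousAt (fun y => s * ψ y) y :=
      continuousAt_const.mul (hψ.continuousOn.continuousAt (hU.mem_nhds (hεU hy.1)))
    exact ContinuousWithinAt.closure_le h1 continuousWithinAt_const h2.continuousWithinAt
      fun z hz => (hs z hz).le
  have hψx : ContDiffAt ℝ ∞ ψ x := hψ.contDiffAt (hU.mem_nhds hx)
  have hG : HasFDerivAt (gradient ψ) (fderiv ℝ (gradient ψ) x) x :=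
    ((av_grad_contDiffAt hψx).differentiableAt (by simp)).hasFDerivAt
  set G := fderiv ℝ (gradient ψ) x
  set g := gradient ψ x with hgdef
  -- test along circles
  have key : ∀ e : E, ⟪x - q, e⟫ = 0 → ‖e‖ ≤ d →
      ⟪g, e⟫ = 0 ∧ 0 ≤ s * (⟪e, G e⟫ - ⟪g, x - q⟫) := by
    intro e he hed
    let c : ℝ → E := fun θ => q + (Real.cos θ • (x - q) + Real.sin θ • e)
    let c' : ℝ → E := fun θ => (-Real.sin θ) • (x - q) + Real.cos θ • e
    have hc : ∀ θ, HasDerivAt c (c' θ) θ := fun θ =>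
      (((Real.hasDerivAt_cos θ).smul_const (x - q)).add
        ((Real.hasDerivAt_sin θ).smul_const e)).const_add q
    have hc' : HasDerivAt c' (-(x - q)) 0 := by
      have := (((Real.hasDerivAt_sin 0).neg).smul_const (x - q)).add
        ((Real.hasDerivAt_cos 0).smul_const e)
      have e1 : -Real.cos 0 • (x - q) + -Real.sin 0 • e = -(x - q) := by simp
      rw [e1] at this
      exact this
    have c0 : c 0 = x := by simp [c]
    have c0' : c' 0 = e := by simp [c']
    have hcb : ∀ θ, c θ ∈ closedBall q d := by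
      intro θ
      rw [mem_closedBall, dist_eq_norm]
      have : c θ - q = Real.cos θ • (x - q) + Real.sin θ • e := by simp [c]
      rw [this]
      have h2 : ‖Real.cos θ • (x - q) + Real.sin θ • e‖ ^ 2 ≤ d ^ 2 := by
        rw [norm_add_sq_real, inner_smul_left, inner_smul_right, he, norm_smul, norm_smul, mul_pow,
          mul_pow, Real.norm_eq_abs, Real.norm_eq_abs, sq_abs, sq_abs, ← hd]
        have h3 : ‖e‖ ^ 2 ≤ d ^ 2 := by gcongr
        nlinarith [Real.sin_sq_add_cos_sq θ, sq_nonneg (Real.sin θ)]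
      exact (pow_le_pow_iff_left₀ (norm_nonneg _) hd0.le two_ne_zero).1 h2
    have hev : ∀ᶠ θ in 𝓝 (0:ℝ), c θ ∈ ball x ε := by
      have : ContinuousAt c 0 := (hc 0).continuousAt
      apply this.eventually
      rw [c0]; exact ball_mem_nhds x hε
    have hm : IsLocalMin (fun θ => s * ψ (c θ)) 0 := by
      filter_upwards [hev] with θ hθ
      simp only [c0, h0, mul_zero]
      exact hs' _ ⟨hθ, hcb θ⟩
    have h1 : ∀ᶠ θ in 𝓝 (0:ℝ), HasDerivAt (fun θ => s * ψ (c θ))
        (s * ⟪gradient ψ (c θ), c' θ⟫) θ := by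
      filter_upwards [hev] with θ hθ
      have hdif : DifferentiableAt ℝ ψ (c θ) :=
        (hψ.contDiffAt (hU.mem_nhds (hεU hθ))).differentiableAt (by simp)
      have := hdif.hasFDerivAt.comp_hasDerivAt θ (hc θ)
      rw [← inner_gradient_left] at this
      exact this.const_mul s
    have hG0 : HasFDerivAt (gradient ψ) G (c 0) := by rw [c0]; exact hG
    have h2 := ((hG0.comp_hasDerivAt 0 (hc 0)).inner ℝ hc').const_mul s
    obtain ⟨a1, a2⟩ := av_second hm h1 h2
    simp only [Function.comp, c0, c0', inner_neg_right] at a1 a2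
    have hs0 : s ≠ 0 := by rintro rfl; simp at hs2
    refine ⟨(mul_eq_zero.1 a1).resolve_left hs0, ?_⟩
    rw [real_inner_comm (G e) e]
    rw [← hgdef] at a2
    linarith
  have hsa : 0 ≤ s * (-⟪g, x - q⟫) := by simpa using (key 0 (by simp) (by simpa using hd0.le)).2
  -- adapted basis
  obtain ⟨b, hb⟩ : ∃ b : OrthonormalBasis (Fin 3) ℝ E, b 0 = d⁻¹ • (x - q) := by
    have hv : Orthonormal ℝ (({0} : Set (Fin 3)).domRestrict fun _ => d⁻¹ • (x - q)) := by
      constructor
      · intro i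
        simp only [Set.domRestrict_apply]
        rw [norm_smul, norm_inv, Real.norm_eq_abs, abs_of_pos hd0, ← hd, inv_mul_cancel₀ hd0.ne']
      · intro i j hij
        exact absurd (Subsingleton.elim i j) hij
    obtain ⟨b, hb⟩ := hv.exists_orthonormalBasis_extension_of_card_eq (ι := Fin 3) (by simp)
    exact ⟨b, hb 0 rfl⟩
  have hxq : x - q = d • b 0 := by rw [hb, smul_smul, mul_inv_cancel₀ hd0.ne', one_smul]
  have k : ∀ i : Fin 3, i ≠ 0 → ⟪g, b i⟫ = 0 ∧
      0 ≤ s * (d ^ 2 * ⟪b i, G (b i)⟫ - ⟪g, x - q⟫) := by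
    intro i hi
    have h := key (d • b i)
      (by rw [hxq, inner_smul_left, inner_smul_right, b.inner_eq_zero hi.symm]; simp)
      (by rw [norm_smul, b.norm_eq_one, Real.norm_eq_abs, abs_of_pos hd0, mul_one])
    rw [inner_smul_right, map_smul, inner_smul_left, inner_smul_right] at h
    refine ⟨(mul_eq_zero.1 h.1).resolve_left hd0.ne', ?_⟩
    have h2 := h.2
    simp only [conj_trivial] at h2
    linarith
  set a := ⟪b 0, g⟫ with ha
  have hga : g = a • b 0 := by
    have := b.sum_repr' g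
    rw [Fin.sum_univ_three, real_inner_comm g (b 1), real_inner_comm g (b 2), (k 1 (by decide)).1,
      (k 2 (by decide)).1] at this
    simpa using this.symm
  have ha0 : a ≠ 0 := by
    intro h; rw [h, zero_smul] at hga; exact hg hga
  have hng : ‖g‖ ^ 2 = a ^ 2 := by
    rw [hga, norm_smul, b.norm_eq_one, mul_one, Real.norm_eq_abs, sq_abs]
  have hg0 : 0 < ‖g‖ := norm_pos_iff.2 hg
  have hin : ⟪g, x - q⟫ = a * d := by
    rw [hxq, inner_smul_right, real_inner_comm, ← ha, mul_comm]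
  have hH := av_H hψx hg b a hga
  rw [← hgdef] at hH
  constructor
  · rw [inner_smul_left, hin, smul_smul]
    conv_rhs => rw [hga, smul_smul]
    rw [hxq, ← hga]
    congr 1
    simp only [conj_trivial]
    field_simp
    rw [hng]
  · rw [hH, inner_smul_left, hin]
    simp only [conj_trivial]
    have k1 := (k 1 (by decide)).2
    have k2 := (k 2 (by decide)).2
    rw [hin] at k1 k2 hsa
    set u := ⟪b 1, G (b 1)⟫
    set v := ⟪b 2, G (b 2)⟫
    have hsa' : 0 ≤ -(s * a) := by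
      by_contra hcon
      push Not at hcon
      nlinarith
    have m1 := mul_nonneg hsa' k1
    have m2 := mul_nonneg hsa' k2
    have e1 : -(s * a) * (s * (d ^ 2 * u - a * d)) = -(a * (d ^ 2 * u - a * d)) := by
      linear_combination (-(a * (d ^ 2 * u - a * d))) * hs2
    have e2 : -(s * a) * (s * (d ^ 2 * v - a * d)) = -(a * (d ^ 2 * v - a * d)) := by
      linear_combination (-(a * (d ^ 2 * v - a * d))) * hs2
    rw [e1] at m1; rw [e2] at m2
    have h3 : a * d * (u + v) ≤ 2 * a ^ 2 := by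
      by_contra hcon
      push Not at hcon
      nlinarith
    have e3 : ‖g‖⁻¹ * (u + v) * (‖g‖⁻¹ * (a * d)) = (a * d * (u + v)) / a ^ 2 := by
      rw [← hng]; field_simp
    rw [e3, div_le_iff₀ (by positivity)]
    exact h3

/-- BALL TEST on a shrinker. -/
theorem ball_test {S : Set E} (hS : IsSelfShrinker S) {x q : E} (hx : x ∈ S)
    (hmin : ∀ y ∈ S, ‖x - q‖ ≤ ‖y - q‖) : ⟪x, x - q⟫ ≤ 4 := by
  by_cases hq : x = q
  · rw [hq]; simp
  obtain ⟨U, ψ, hU, hxU, hψ, hg, hz, hH⟩ := hS.2.2 x hx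
  obtain ⟨h1, h2⟩ := level_test hU hxU hψ (hg x hxU) ((hz x hxU).1 hx) hq
    fun y hy h => hmin y ((hz y hy).2 h)
  rw [hH x hxU hx] at h2
  rw [h1, inner_smul_right]
  linarith

/-- two-sided balls bound the support function -/
theorem supp_le {S : Set E} (hS : IsSelfShrinker S) {x n : E} {ρ : ℝ} (hx : x ∈ S) (hn : ‖n‖ = 1)
    (hρ : 0 < ρ) (h1 : ∀ y ∈ S, ρ ≤ ‖y - (x + ρ • n)‖) (h2 : ∀ y ∈ S, ρ ≤ ‖y - (x - ρ • n)‖) :
    |⟪x, n⟫| ≤ 4 / ρ := by
  have hn' : ‖ρ • n‖ = ρ := by rw [norm_smul, hn, mul_one, Real.norm_eq_abs, abs_of_pos hρ]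
  have a := ball_test hS hx (q := x + ρ • n) fun y hy => by
    rw [show x - (x + ρ • n) = -(ρ • n) by abel, norm_neg, hn']; exact h1 y hy
  have b := ball_test hS hx (q := x - ρ • n) fun y hy => by
    rw [show x - (x - ρ • n) = ρ • n by abel, hn']; exact h2 y hy
  rw [show x - (x + ρ • n) = -(ρ • n) by abel, inner_neg_right, inner_smul_right] at a
  rw [show x - (x - ρ • n) = ρ • n by abel, inner_smul_right] at b
  rw [abs_le, neg_le, le_div_iff₀ hρ, le_div_iff₀ hρ]
  constructor <;> linarith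

/-- STATIC SPHERE AVOIDANCE for the flow `√(-t) S`: if the ball `B(p,R)` misses `μ S`, `μ ≥ 1`, then
`S` stays at squared distance `≥ R² - 4(μ²-1)` from `p`. -/
theorem avoid {S : Set E} (hS : IsSelfShrinker S) (p : E) {μ R : ℝ} (hμ : 1 ≤ μ) (hR : 0 ≤ R)
    (h : ∀ y ∈ S, R ≤ ‖μ • y - p‖) : ∀ x ∈ S, R ^ 2 - 4 * (μ ^ 2 - 1) ≤ ‖x - p‖ ^ 2 := by
  let f : ℝ → ℝ := fun m => (m * infDist (m⁻¹ • p) S) ^ 2 - 4 * m ^ 2
  have hle : ∀ m, 0 < m → ∀ y ∈ S, f m ≤ ‖m • y - p‖ ^ 2 - 4 * m ^ 2 := by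
    intro m hm y hy
    have h1 : infDist (m⁻¹ • p) S ≤ dist (m⁻¹ • p) y := infDist_le_dist_of_mem hy
    have h2 : ‖m • y - p‖ = m * dist (m⁻¹ • p) y := by
      rw [dist_comm, dist_eq_norm, show m • y - p = m • (y - m⁻¹ • p) by
        rw [smul_sub, smul_smul, mul_inv_cancel₀ hm.ne', one_smul], norm_smul, Real.norm_eq_abs,
        abs_of_pos hm]
    have h3 := infDist_nonneg (x := m⁻¹ • p) (s := S)
    simp only [f]
    rw [h2]
    gcongr
  have hex : ∀ m, 0 < m → ∃ y ∈ S, f m = ‖m • y - p‖ ^ 2 - 4 * m ^ 2 ∧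
      ⟪y, m • y - p⟫ ≤ 4 * m := by
    intro m hm
    obtain ⟨y, hy, e⟩ := hS.2.1.exists_infDist_eq_dist hS.1 (m⁻¹ • p)
    have e1 : m • y - p = m • (y - m⁻¹ • p) := by
      rw [smul_sub, smul_smul, mul_inv_cancel₀ hm.ne', one_smul]
    refine ⟨y, hy, ?_, ?_⟩
    · simp only [f]
      rw [e, e1, norm_smul, Real.norm_eq_abs, abs_of_pos hm, dist_comm, dist_eq_norm]
    · have := ball_test hS hy (q := m⁻¹ • p) fun z hz => by
        rw [← dist_eq_norm, ← dist_eq_norm, dist_comm, ← e, dist_comm]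
        exact infDist_le_dist_of_mem hz
      rw [e1, inner_smul_right]
      nlinarith
  have hcont : ContinuousOn f (Icc 1 μ) := by
    intro m hm
    have hm0 : m ≠ 0 := by linarith [hm.1] |> fun h : 0 < m => h.ne'
    have h1 : ContinuousAt (fun m : ℝ => m⁻¹ • p) m := (continuousAt_inv₀ hm0).smul continuousAt_const
    have h2 : ContinuousAt (fun m : ℝ => infDist (m⁻¹ • p) S) m :=
      (continuous_infDist_pt S).continuousAt.comp h1
    exact (((continuousAt_id.mul h2).pow 2).sub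
      (continuousAt_const.mul (continuousAt_id.pow 2))).continuousWithinAt
  have main := image_le_of_liminf_slope_right_le_deriv_boundary hcont (B := fun _ => f 1)
    (B' := fun _ => 0) le_rfl continuousOn_const
    (fun x _ => hasDerivWithinAt_const _ _ _) (fun m hm r hr => by
      have hm0 : 0 < m := by linarith [hm.1]
      obtain ⟨y, hy, e, hi⟩ := hex m hm0
      apply Eventually.frequently
      have hev : ∀ᶠ z in 𝓝[>] m, (z - m) * ‖y‖ ^ 2 < r := by
        apply eventually_nhdsWithin_of_eventually_nhds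
        have : ContinuousAt (fun z : ℝ => (z - m) * ‖y‖ ^ 2) m := by fun_prop
        apply this.eventually_lt continuousAt_const
        simpa using hr
      filter_upwards [hev, self_mem_nhdsWithin] with z hz hzm
      have hzm' : 0 < z - m := sub_pos.2 hzm
      rw [slope_def_field, div_lt_iff₀ hzm', e]
      have h1 := hle z (by linarith) y hy
      have e2 : ‖z • y - p‖ ^ 2 = ‖m • y - p‖ ^ 2 + 2 * ((z - m) * ⟪y, m • y - p⟫)
          + (z - m) ^ 2 * ‖y‖ ^ 2 := by
        rw [show z • y - p = (m • y - p) + (z - m) • y by rw [sub_smul]; abel, norm_add_sq_real,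
          inner_smul_right, real_inner_comm, norm_smul, mul_pow, Real.norm_eq_abs, sq_abs]
      have h3 := mul_le_mul_of_nonneg_left hi hzm'.le
      have h4 := mul_lt_mul_of_pos_left hz hzm'
      nlinarith [sq_nonneg (z - m)])
  have h1 := main (x := μ) ⟨hμ, le_rfl⟩
  intro x hx
  obtain ⟨y, hy, e, -⟩ := hex μ (by linarith)
  have h2 := hle 1 one_pos x hx
  have h3 : R ^ 2 ≤ ‖μ • y - p‖ ^ 2 := by have := h y hy; gcongr
  rw [one_smul] at h2
  linarith

end Crest.Agent.N250.E
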