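import Crest.Agent.N250.E.Stm

/-! Row 250, block E (helper28): the clean cone about a cylindrical direction (E4); such directions
are isolated. -/

set_option autoImplicit false
open MeasureTheory Set Filter Topology Metric
open scoped ContDiff RealInnerProductSpace
open Crest.GeometryTopology.MCF

noncomputable section

namespace Crest.Agent.N250.E

open EP (dz cyl CylLim)

theorem dz_nonneg (y x : E) : 0 ≤ dz y x := norm_nonneg _

theorem dz_add_le (y x z : E) : dz y (x + z) ≤ dz y x + dz y z := by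
  unfold dz
  rw [inner_add_right, add_smul, show x + z - (⟪y, x⟫ • y + ⟪y, z⟫ • y) =
    (x - ⟪y, x⟫ • y) + (z - ⟪y, z⟫ • y) by abel]
  exact norm_add_le _ _

theorem dz_smul (y x : E) {a : ℝ} (ha : 0 ≤ a) : dz y (a • x) = a * dz y x := by
  unfold dz
  rw [inner_smul_right, mul_smul, ← smul_sub, norm_smul, Real.norm_eq_abs, abs_of_nonneg ha]

theorem dz_neg (y x : E) : dz y (-x) = dz y x := by
  unfold dz
  rw [inner_neg_right, neg_smul, ← norm_neg]; congr 1; abel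

theorem dz_add_smul {y : E} (hy : ‖y‖ = 1) (x : E) (a : ℝ) : dz y (x + a • y) = dz y x := by
  unfold dz
  rw [inner_add_right, inner_smul_right, real_inner_self_eq_norm_sq, hy, add_smul]
  congr 1; simp

theorem dz_sq {y : E} (hy : ‖y‖ = 1) (x : E) : dz y x ^ 2 = ‖x‖ ^ 2 - ⟪y, x⟫ ^ 2 := by
  unfold dz
  rw [norm_sub_sq_real, inner_smul_right, norm_smul, hy, real_inner_comm y x, Real.norm_eq_abs,
    mul_one, sq_abs]
  ring

theorem dz_le {y : E} (hy : ‖y‖ = 1) (x : E) : dz y x ≤ ‖x‖ :=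
  (pow_le_pow_iff_left₀ (dz_nonneg y x) (norm_nonneg x) two_ne_zero).1
    (by rw [dz_sq hy]; linarith [sq_nonneg ⟪y, x⟫])

theorem dz_sub_le {y : E} (hy : ‖y‖ = 1) (x z : E) : dz y x ≤ dz y z + ‖x - z‖ := by
  have := dz_add_le y z (x - z)
  rw [add_sub_cancel] at this
  linarith [dz_le hy (x - z)]

theorem continuous_dz (y : E) : Continuous (dz y) := by unfold dz; fun_prop

theorem norm_le_dz {y : E} (hy : ‖y‖ = 1) (x : E) : ‖x‖ ≤ |⟪y, x⟫| + dz y x := by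
  have h1 := dz_sq hy x
  have h2 := dz_nonneg y x
  have h3 := abs_nonneg ⟪y, x⟫
  refine (pow_le_pow_iff_left₀ (norm_nonneg x) (by positivity) two_ne_zero).1 ?_
  nlinarith [sq_abs ⟪y, x⟫, mul_nonneg h2 h3]

theorem abs_inner_le {y : E} (hy : ‖y‖ = 1) (x : E) : |⟪y, x⟫| ≤ ‖x‖ := by
  simpa [hy] using abs_real_inner_le_norm y x

/-- static sphere avoidance -/
def Av (A : Set E) : Prop := ∀ (p : E) (μ R : ℝ), 1 ≤ μ → 0 ≤ R → (∀ y ∈ A, R ≤ ‖μ • y - p‖) →
  ∀ x ∈ A, R ^ 2 - 4 * (μ ^ 2 - 1) ≤ ‖x - p‖ ^ 2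

theorem av_of (hA : AvoidS) {S : Mv} {Λ : ℝ} {m : Md} (hS : Sh S Λ m) : Av (S.sl 0) := by
  intro p μ R hμ hR h x hx
  have hμ0 : 0 < μ := by linarith
  have h1 := hA S.unresc hS.cl.fl.mcf p R (-μ ^ 2) (-1) hR
    (fun q hq hq' => hS.cl.fl.proper q hq ⟨trivial, by
      have := hq'.2.2
      change q.2 < 0
      linarith⟩)
    (fun z hz => by
      have hz' := (unr_mem' hS.shr.st z hμ0).1 hz
      have := h _ hz'
      rwa [smul_smul, mul_inv_cancel₀ hμ0.ne', one_smul, ← dist_eq_norm] at this)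
    (-1) ⟨by nlinarith, le_rfl⟩ x (by rw [unr_sl_one hS.shr.st]; exact hx)
  rw [dist_eq_norm] at h1
  linarith

/-- E4: the clean cone -/
theorem clean (hK : KurS) {A : Set E} (hA : Av A) {y : E} (hy : ‖y‖ = 1) (h : CylLim y A) :
    ∃ ε R : ℝ, 0 < ε ∧ ∀ x ∈ A, R ≤ ⟪y, x⟫ → dz y x ≤ ε * ⟪y, x⟫ → dz y x < 2 := by
  have hc : IsCompact (closedBall (0 : E) 10 ∩ {x | 2 ≤ dz y x}) :=
    (isCompact_closedBall _ _).inter_right (isClosed_le continuous_const (continuous_dz y))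
  have h2 : √2 < 2 := by
    rw [Real.sqrt_lt' two_pos]; norm_num
  obtain ⟨Λ, hΛ⟩ := (hK y A hy h).1 _ hc (Set.disjoint_left.2 fun x hx hx' => by
    have a : 2 ≤ dz y x := hx.2
    have b : dz y x = √2 := hx'
    linarith)
  have hL : 0 < max Λ 1 := lt_max_of_lt_right one_pos
  refine ⟨(max Λ 1)⁻¹, Λ, inv_pos.2 hL, fun x hx hR hε => ?_⟩
  by_contra hd
  push Not at hd
  set s := ⟪y, x⟫ with hs
  set d := dz y x with hdd
  have hw : ‖x - s • y‖ = d := rfl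
  have hdw : dz y (x - s • y) = d := by
    rw [sub_eq_add_neg, ← neg_smul, dz_add_smul hy]
  by_cases h10 : d ≤ 10
  · refine hΛ s hR (x - s • y) ⟨by rw [mem_closedBall_zero_iff, hw]; exact h10, ?_⟩ (by simpa using hx)
    change 2 ≤ dz y _
    rw [hdw]; exact hd
  push Not at h10
  have hd0 : 0 < d := by linarith
  have key := hA x (d / 5) (d / 2) (by linarith) (by linarith) (fun z hz => by
    by_contra hlt
    push Not at hlt
    have e1 : (d / 5) • z - x = (d / 5) • (z - (5 / d) • x) := by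
      rw [smul_sub, smul_smul]; congr 1
      rw [show d / 5 * (5 / d) = 1 by field_simp, one_smul]
    rw [e1, norm_smul, Real.norm_eq_abs, abs_of_pos (by linarith)] at hlt
    have h3 : ‖z - (5 / d) • x‖ < 5 / 2 := by
      by_contra hcon
      push Not at hcon
      nlinarith
    have h5 : 0 ≤ 5 / d := by positivity
    have hlam : Λ ≤ 5 / d * s := by
      have a1 : max Λ 1 * d ≤ s := by
        rwa [inv_mul_eq_div, le_div_iff₀ hL, mul_comm] at hε
      have a2 : max Λ 1 ≤ s / d := by rwa [le_div_iff₀ hd0]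
      have a3 : 5 / d * s = 5 * (s / d) := by ring
      linarith [le_max_left Λ 1]
    have e2 : z - (5 / d * s) • y - (5 / d) • (x - s • y) = z - (5 / d) • x := by
      rw [smul_sub, smul_smul]; abel
    have n1 : ‖(5 / d) • (x - s • y)‖ = 5 := by
      rw [norm_smul, hw, Real.norm_eq_abs, abs_of_nonneg h5]; field_simp
    have n2 : dz y ((5 / d) • (x - s • y)) = 5 := by
      rw [dz_smul _ _ h5, hdw]; field_simp
    refine hΛ _ hlam (z - (5 / d * s) • y) ⟨?_, ?_⟩ (by simpa using hz)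
    · rw [mem_closedBall_zero_iff]
      have := norm_add_le (z - (5 / d * s) • y - (5 / d) • (x - s • y)) ((5 / d) • (x - s • y))
      rw [sub_add_cancel, e2, n1] at this
      linarith
    · change 2 ≤ dz y _
      have := dz_sub_le hy ((5 / d) • (x - s • y)) (z - (5 / d * s) • y)
      rw [n2, norm_sub_rev, e2] at this
      linarith) x hx
  rw [sub_self, norm_zero] at key
  nlinarith

theorem exists_Q {y : E} (hy : ‖y‖ = 1) : ∃ Q : E ≃ₗᵢ[ℝ] E, Q (ee 0) = y :=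
  ⟨(ℝ ∙ (ee 0 - y))ᗮ.reflection, Submodule.reflection_sub (by simp [hy])⟩

theorem inner_Q (Q : E ≃ₗᵢ[ℝ] E) (x : E) : ⟪Q (ee 0), Q x⟫ = x 0 := by
  rw [Q.inner_map_map]; simp [EuclideanSpace.inner_single_left]

theorem norm_Q (Q : E ≃ₗᵢ[ℝ] E) : ‖Q (ee 0)‖ = 1 := by simp

theorem dz_Q (Q : E ≃ₗᵢ[ℝ] E) (x : E) : dz (Q (ee 0)) (Q x) = √(x 1 ^ 2 + x 2 ^ 2) := by
  rw [← Real.sqrt_sq (dz_nonneg (Q (ee 0)) (Q x)), dz_sq (norm_Q Q), inner_Q, Q.norm_map,
    EuclideanSpace.real_norm_sq_eq, Fin.sum_univ_three]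
  congr 1; ring

theorem mem_cone0 (Q : E ≃ₗᵢ[ℝ] E) (ε : ℝ) (x : E) :
    Q.symm x ∈ cone0 ε ↔ dz (Q (ee 0)) x ≤ ε * ⟪Q (ee 0), x⟫ := by
  have h1 := dz_Q Q (Q.symm x)
  have h2 := inner_Q Q (Q.symm x)
  rw [Q.apply_symm_apply] at h1 h2
  rw [h1, h2]; rfl

theorem exists_cyl {y : E} (hy : ‖y‖ = 1) : ∃ p ∈ cyl y, ‖p‖ ≤ 2 := by
  obtain ⟨Q, rfl⟩ := exists_Q hy
  refine ⟨Q (√2 • ee 1), ?_, ?_⟩
  · change dz _ _ = _
    rw [dz_Q]; simp
  · rw [Q.norm_map, norm_smul]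
    simp only [Real.norm_eq_abs, PiLp.norm_single, norm_one, mul_one,
      abs_of_nonneg (Real.sqrt_nonneg 2)]
    rw [Real.sqrt_le_iff]; norm_num

/-- cylindrical directions are isolated -/
theorem isolated (hK : KurS) {A : Set E} (hA : Av A) {y : E} (hy : ‖y‖ = 1) (h : CylLim y A) :
    ∃ δ : ℝ, 0 < δ ∧ ∀ y' : E, ‖y'‖ = 1 → dist y' y < δ → CylLim y' A → y' = y := by
  obtain ⟨ε, R, hε, hc⟩ := clean hK hA hy h
  refine ⟨min (ε / 4) (1 / 2), by positivity, fun y' hy' hd h' => ?_⟩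
  by_contra hne
  rw [dist_eq_norm] at hd
  have hd1 : ‖y' - y‖ < ε / 4 := hd.trans_le (min_le_left _ _)
  have hd2 : ‖y' - y‖ < 1 / 2 := hd.trans_le (min_le_right _ _)
  have hyy : ⟪y, y⟫ = 1 := by rw [real_inner_self_eq_norm_sq, hy]; norm_num
  have hi : 1 / 2 < ⟪y, y'⟫ := by
    have := abs_inner_le hy (y' - y)
    rw [inner_sub_right, hyy, abs_le] at this
    linarith [this.1]
  have ha1 : dz y y' < ε / 4 := by
    have h1 := dz_le hy (y' - y)
    have h2 := dz_add_smul hy (y' - y) 1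
    rw [one_smul, sub_add_cancel] at h2
    linarith
  have ha0 : 0 < dz y y' := by
    refine (dz_nonneg y y').lt_of_ne fun h0 => hne ?_
    have h1 := dz_sq hy y'
    rw [← h0, hy'] at h1
    have h2 : ⟪y, y'⟫ = 1 := by nlinarith
    have h3 : ‖y' - ⟪y, y'⟫ • y‖ = 0 := h0.symm
    rwa [h2, one_smul, norm_eq_zero, sub_eq_zero] at h3
  set a := dz y y'
  obtain ⟨p, hp, hp2⟩ := exists_cyl hy'
  obtain ⟨Λ, hΛ⟩ := (hK y' A hy' h').2 p hp 1 one_pos
  obtain ⟨lam, h1, h2, h3, h4⟩ : ∃ lam : ℝ, Λ ≤ lam ∧ 5 / a ≤ lam ∧ (12 + 12 * ε) / ε ≤ lam ∧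
      2 * (R + 3) ≤ lam :=
    ((eventually_ge_atTop _).and ((eventually_ge_atTop _).and ((eventually_ge_atTop _).and
      (eventually_ge_atTop _)))).exists
  obtain ⟨x, hx, hxA⟩ := hΛ lam h1
  have hl : 0 < lam := lt_of_lt_of_le (by positivity) h2
  rw [div_le_iff₀ ha0] at h2
  rw [div_le_iff₀ hε] at h3
  have hx3 : ‖x‖ < 3 := by
    have := norm_add_le (x - p) p
    rw [sub_add_cancel, ← dist_eq_norm] at this
    linarith
  have e1 : dz y (lam • y') = lam * a := dz_smul _ _ hl.le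
  have u1 := dz_sub_le hy (x + lam • y') (lam • y')
  have u2 := dz_sub_le hy (lam • y') (x + lam • y')
  rw [e1, add_sub_cancel_right] at u1
  rw [e1, norm_sub_rev, add_sub_cancel_right] at u2
  have u3 : lam / 2 - 3 ≤ ⟪y, x + lam • y'⟫ := by
    rw [inner_add_right, inner_smul_right]
    have := abs_inner_le hy x
    rw [abs_le] at this
    nlinarith [this.1]
  have := hc _ hxA (by linarith) (by nlinarith)
  linarith

/-- two narrow cones with a common point have close axes -/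
theorem axes_close {y y' x : E} (hy : ‖y‖ = 1) (hy' : ‖y'‖ = 1) {ε : ℝ} (hε : 0 < ε) (hx : x ≠ 0)
    (h : dz y x ≤ ε * ⟪y, x⟫) (h' : dz y' x ≤ ε * ⟪y', x⟫) : dist y y' ≤ 4 * ε := by
  have k : ∀ e : E, ‖e‖ = 1 → dz e x ≤ ε * ⟪e, x⟫ → ‖x - ‖x‖ • e‖ ≤ 2 * ε * ‖x‖ := by
    intro e he h
    have h0 : 0 ≤ ⟪e, x⟫ := by
      by_contra hc
      push Not at hc
      nlinarith [dz_nonneg e x]
    have h1 := norm_le_dz he x
    have h2 := abs_inner_le he x
    rw [abs_of_nonneg h0] at h1 h2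
    have h3 := norm_sub_le (x - ⟪e, x⟫ • e) ((‖x‖ - ⟪e, x⟫) • e)
    rw [norm_smul, he, mul_one, Real.norm_eq_abs, abs_of_nonneg (by linarith),
      show x - ⟪e, x⟫ • e - (‖x‖ - ⟪e, x⟫) • e = x - ‖x‖ • e by rw [sub_smul]; abel] at h3
    have h4 : ‖x - ⟪e, x⟫ • e‖ = dz e x := rfl
    nlinarith
  have h1 := k y hy h
  have h2 := k y' hy' h'
  have h3 := norm_sub_le (x - ‖x‖ • y') (x - ‖x‖ • y)
  rw [sub_sub_sub_cancel_left, ← smul_sub, norm_smul, norm_norm, ← dist_eq_norm] at h3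
  have h0 : 0 < ‖x‖ := norm_pos_iff.2 hx
  nlinarith

end Crest.Agent.N250.E

end
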