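import Crest.Agent.N250.Defs

/-!
Row 250, block E (helper85): static oriented surfaces `(S, n)`, tangent curves, invariance under
translations.
-/

set_option autoImplicit false

open Set Filter Topology Real
open scoped ContDiff InnerProductSpace
open Crest.GeometryTopology.MCF

noncomputable section

namespace Crest.Agent.N250.Cls

/-- `S` is a closed smooth surface with unit normal `n` -/
structure Hs (S : Set E) (n : E → E) : Prop where
  closed : IsClosed S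
  loc : ∀ x ∈ S, ∃ (U : Set E) (ψ : E → ℝ), IsOpen U ∧ x ∈ U ∧ ContDiffOn ℝ ∞ ψ U ∧
    (∀ z ∈ U, gradient ψ z ≠ 0) ∧ (∀ z ∈ U, z ∈ S ↔ ψ z = 0) ∧
    ∀ z ∈ U, z ∈ S → n z = ‖gradient ψ z‖⁻¹ • gradient ψ z

lemma inner_gradient (ψ : E → ℝ) (z v : E) : ⟪gradient ψ z, v⟫_ℝ = fderiv ℝ ψ z v :=
  InnerProductSpace.toDual_symm_apply

lemma cd_gradient {ψ : E → ℝ} {z : E} (h : ContDiffAt ℝ ∞ ψ z) : ContDiffAt ℝ ∞ (gradient ψ) z := by
  have h1 : ContDiffAt ℝ ∞ (fderiv ℝ ψ) z := h.fderiv_right (m := ∞) (by simp)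
  exact ((InnerProductSpace.toDual ℝ E).symm.toContinuousLinearEquiv.contDiff.contDiffAt).comp z h1

lemma cd_unit {ψ : E → ℝ} {z : E} (h : ContDiffAt ℝ ∞ ψ z) (h0 : gradient ψ z ≠ 0) :
    ContDiffAt ℝ ∞ (fun z => ‖gradient ψ z‖⁻¹ • gradient ψ z) z :=
  (((cd_gradient h).norm ℝ h0).inv (norm_ne_zero_iff.2 h0)).smul (cd_gradient h)

lemma inner_unit {v : E} (h : v ≠ 0) : ⟪‖v‖⁻¹ • v, ‖v‖⁻¹ • v⟫_ℝ = 1 := by
  have := norm_ne_zero_iff.2 h
  rw [real_inner_smul_left, real_inner_smul_right, real_inner_self_eq_norm_sq]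
  field_simp

namespace Hs

variable {S : Set E} {n : E → E} (s : Hs S n)
include s

lemma unit {x : E} (hx : x ∈ S) : ⟪n x, n x⟫_ℝ = 1 := by
  obtain ⟨U, ψ, -, xU, -, h0, -, hn⟩ := s.loc x hx
  rw [hn x xU hx]
  exact inner_unit (h0 x xU)

/-- the normal has a smooth local extension -/
lemma ext {x : E} (hx : x ∈ S) : ∃ ν : E → E, ContDiffAt ℝ ∞ ν x ∧ n =ᶠ[𝓝[S] x] ν ∧ n x = ν x := by
  obtain ⟨U, ψ, hU, xU, hψ, h0, -, hn⟩ := s.loc x hx
  refine ⟨_, cd_unit (hψ.contDiffAt (hU.mem_nhds xU)) (h0 x xU), ?_, hn x xU hx⟩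
  filter_upwards [self_mem_nhdsWithin, mem_nhdsWithin_of_mem_nhds (hU.mem_nhds xU)] with z h1 h2
  exact hn z h2 h1

lemma cont : ContinuousOn n S := fun x hx => by
  obtain ⟨ν, h1, h2, h3⟩ := s.ext hx
  exact h1.continuousAt.continuousWithinAt.congr_of_eventuallyEq h2 h3

lemma neg : Hs S fun x => -n x := by
  refine ⟨s.closed, fun x hx => ?_⟩
  obtain ⟨U, ψ, hU, xU, hψ, h0, hm, hn⟩ := s.loc x hx
  have e : ∀ z, gradient (fun z => -ψ z) z = -gradient ψ z := fun z => by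
    simp only [gradient, fderiv_fun_neg, map_neg]
  refine ⟨U, fun z => -ψ z, hU, xU, hψ.neg, fun z hz => ?_, fun z hz => ?_, fun z hz hs => ?_⟩
  · rw [e]; exact neg_ne_zero.2 (h0 z hz)
  · rw [hm z hz, neg_eq_zero]
  · rw [e, hn z hz hs, norm_neg, smul_neg]

/-- the normal is orthogonal to the velocity of every curve in `S` -/
lemma perp {c : ℝ → E} {v : E} {t : ℝ} (hc : HasDerivAt c v t) (hS : ∀ᶠ u in 𝓝 t, c u ∈ S) :
    ⟪n (c t), v⟫_ℝ = 0 := by
  have hx := hS.self_of_nhds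
  obtain ⟨U, ψ, hU, xU, hψ, h0, hm, hn⟩ := s.loc _ hx
  have d : HasDerivAt (ψ ∘ c) (fderiv ℝ ψ (c t) v) t :=
    ((hψ.contDiffAt (hU.mem_nhds xU)).differentiableAt (by simp)).hasFDerivAt.comp_hasDerivAt t hc
  have z : ψ ∘ c =ᶠ[𝓝 t] fun _ => 0 := by
    filter_upwards [hS, hc.continuousAt.preimage_mem_nhds (hU.mem_nhds xU)] with u h1 h2
    exact (hm _ h2).1 h1
  have e : fderiv ℝ ψ (c t) v = 0 := d.unique ((hasDerivAt_const t (0 : ℝ)).congr_of_eventuallyEq z)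
  rw [hn _ xU hx, real_inner_smul_left, inner_gradient, e, mul_zero]

lemma perp_line {x v : E} (h : ∀ u : ℝ, x + u • v ∈ S) : ⟪n x, v⟫_ℝ = 0 := by
  have d : HasDerivAt (fun u : ℝ => x + u • v) v 0 := by
    simpa using ((hasDerivAt_id (0 : ℝ)).smul_const v).const_add x
  simpa using s.perp d (Eventually.of_forall h)

/-- integral curves of tangent fields `T ∘ n` -/
lemma flow {T : E → E} (hT : ContDiff ℝ 1 T) (hp : ∀ v, ⟪v, v⟫_ℝ = 1 → ⟪v, T v⟫_ℝ = 0) {x : E}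
    (hx : x ∈ S) :
    ∃ c : ℝ → E, c 0 = x ∧ ∀ᶠ u in 𝓝 (0 : ℝ), c u ∈ S ∧ HasDerivAt c (T (n (c u))) u := by
  obtain ⟨U, ψ, hU, xU, hψ, h0, hm, hn⟩ := s.loc x hx
  set ν : E → E := fun z => ‖gradient ψ z‖⁻¹ • gradient ψ z with hν
  have c1 : ContDiffAt ℝ 1 (fun z => T (ν z)) x :=
    hT.contDiffAt.comp x ((cd_unit (hψ.contDiffAt (hU.mem_nhds xU)) (h0 x xU)).of_le (by simp))
  obtain ⟨c, c0, ε, hε, hc⟩ :=
    c1.exists_forall_mem_closedBall_exists_eq_forall_mem_Ioo_hasDerivAt₀ 0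
  have m0 : Ioo (0 - ε) (0 + ε) ∈ 𝓝 (0 : ℝ) := Ioo_mem_nhds (by linarith) (by linarith)
  have m1 : c ⁻¹' U ∈ 𝓝 (0 : ℝ) :=
    (hc 0 (mem_of_mem_nhds m0)).continuousAt.preimage_mem_nhds (hU.mem_nhds (c0 ▸ xU))
  obtain ⟨δ, hδ, hb⟩ := Metric.mem_nhds_iff.1 (inter_mem m0 m1)
  have d : ∀ u ∈ Metric.ball (0 : ℝ) δ, HasDerivAt (ψ ∘ c) 0 u := fun u hu => by
    have uU : c u ∈ U := (hb hu).2
    have d := ((hψ.contDiffAt (hU.mem_nhds uU)).differentiableAt
      (by simp)).hasFDerivAt.comp_hasDerivAt u (hc u (hb hu).1)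
    refine d.congr_deriv ?_
    have e := hp (ν (c u)) (inner_unit (h0 _ uU))
    rw [hν, real_inner_smul_left, inner_gradient] at e
    exact (mul_eq_zero.1 e).resolve_left (inv_ne_zero (norm_ne_zero_iff.2 (h0 _ uU)))
  have k : ∀ u ∈ Metric.ball (0 : ℝ) δ, ψ (c u) = 0 := fun u hu => by
    have := Metric.isOpen_ball.is_const_of_deriv_eq_zero (convex_ball (0 : ℝ) δ).isPreconnected
      (fun u hu => (d u hu).differentiableAt.differentiableWithinAt) (fun u hu => (d u hu).deriv)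
      hu (Metric.mem_ball_self hδ)
    simp only [Function.comp] at this
    rw [this, c0]
    exact (hm x xU).1 hx
  refine ⟨c, c0, ?_⟩
  filter_upwards [Metric.ball_mem_nhds 0 hδ] with u hu
  have uU : c u ∈ U := (hb hu).2
  have uS := (hm _ uU).2 (k u hu)
  refine ⟨uS, ?_⟩
  rw [hn _ uU uS]
  exact hc u (hb hu).1

/-- if the normal is orthogonal to `y` the surface is invariant under translation by `y` -/
theorem inv {y : E} (h : ∀ x ∈ S, ⟪n x, y⟫_ℝ = 0) {x : E} (hx : x ∈ S) (t : ℝ) : x + t • y ∈ S := by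
  have cl : Continuous fun t : ℝ => x + t • y := by fun_prop
  have : IsClopen {t : ℝ | x + t • y ∈ S} := by
    refine ⟨s.closed.preimage cl, isOpen_iff_mem_nhds.2 fun t ht => ?_⟩
    obtain ⟨c, c0, hc⟩ := s.flow (T := fun v => y - ⟪v, y⟫_ℝ • v)
      (contDiff_const.sub ((contDiff_id.inner ℝ contDiff_const).smul contDiff_id))
      (fun v hv => by rw [inner_sub_right, real_inner_smul_right, hv, mul_one, sub_self]) ht
    obtain ⟨δ, hδ, hb⟩ := Metric.eventually_nhds_iff_ball.1 hc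
    have d : ∀ u ∈ Metric.ball (0 : ℝ) δ, HasDerivAt (fun u => c u - u • y) 0 u := fun u hu => by
      have := (hb u hu).2
      rw [h _ (hb u hu).1, zero_smul, sub_zero] at this
      exact (this.sub ((hasDerivAt_id u).smul_const y)).congr_deriv (by simp)
    have k : ∀ u ∈ Metric.ball (0 : ℝ) δ, c u - u • y = x + t • y := fun u hu => by
      have := Metric.isOpen_ball.is_const_of_deriv_eq_zero (convex_ball (0 : ℝ) δ).isPreconnected
        (fun u hu => (d u hu).differentiableAt.differentiableWithinAt) (fun u hu => (d u hu).deriv)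
        hu (Metric.mem_ball_self hδ)
      rw [this, c0, zero_smul, sub_zero]
    refine Metric.mem_nhds_iff.2 ⟨δ, hδ, fun u hu => ?_⟩
    have hu' : u - t ∈ Metric.ball (0 : ℝ) δ := by simpa [Real.dist_eq] using hu
    have e : x + u • y = c (u - t) := by
      rw [← sub_add_cancel (c (u - t)) ((u - t) • y), k _ hu', add_assoc, ← add_smul]
      simp
    exact (show x + u • y ∈ S from e ▸ (hb _ hu').1)
  have u := this.eq_univ ⟨0, by simpa using hx⟩
  exact (u ▸ mem_univ t : t ∈ {t : ℝ | x + t • y ∈ S})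

end Hs

/-- the slice of a static closed surface -/
theorem hs_of {F : Mv} (hr : F.Reg) (hc : IsClosed F.M) (t : ℝ) :
    Hs (F.sl t) fun x => F.n (x, t) := by
  have ci : ContDiff ℝ ∞ fun x : E => ((x, t) : ST) := contDiff_id.prodMk contDiff_const
  refine ⟨hc.preimage ci.continuous, fun x hx => ?_⟩
  obtain ⟨W, φ, hW, L⟩ := hr (x, t) hx
  exact ⟨(fun x : E => ((x, t) : ST)) ⁻¹' W, fun z => φ (z, t), L.isOpen.preimage ci.continuous, hW,
    L.sm.comp ci.contDiffOn fun z hz => hz, fun z hz => L.ne (z, t) hz, fun z hz => L.mem (z, t) hz,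
    fun z hz hs => L.n_eq (z, t) hz hs⟩

end Crest.Agent.N250.Cls

end
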