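import Crest.Agent.N250.E.Blow
import Crest.Agent.N250.Tr.Pull

/-!
Row 250, block E (helper85): reach in tubes about rays, and jets of the normal from the reach.
-/

set_option autoImplicit false

open MeasureTheory Set Filter Topology
open scoped ContDiff InnerProductSpace
open Crest.GeometryTopology.MCF

noncomputable section

namespace Crest.Agent.N250.E.Bl

variable {S : Mv} {Λ : ℝ} {m : Md}

/-- uniform reach far out in a tube about a ray -/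
theorem tube_reach (hH : HuiskenS) (hS : Sh S Λ m) (y : E) (D : ℝ) :
    ∃ ρ R : ℝ, 0 < ρ ∧ ∀ x ∈ S.sl 0, R ≤ ⟪y, x⟫_ℝ → EP.dz y x ≤ D → S.Reach (x, 0) ρ := by
  have st := hS.shr.st
  obtain ⟨θ, hθ⟩ := th_lim hH hS y
  set L := m.L (D + 1) with hL
  have L0 : 0 < L := one_pos.trans_le (m.L_ge _)
  have t := (hθ.comp (tendsto_id.atTop_div_const L0)).sub (hθ.comp (tendsto_id.atTop_mul_const L0))
  rw [sub_self] at t
  obtain ⟨R, hR⟩ := eventually_atTop.1 (t.eventually (eventually_lt_nhds (m.η_pos (D + 1))))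
  refine ⟨m.c (D + 1), R, m.c_pos _, fun x hx h1 h2 => ?_⟩
  have := hS.cl.as (D + 1) (⟪y, x⟫_ℝ • y) 1 one_pos (by rw [mem_Iio, ← hL]; nlinarith) (by
    rw [← hL, unr_Fg st _ (mul_pos L0 one_pos), unr_Fg st _ (one_div_pos.2 L0), smul_smul, smul_smul,
      mul_one, one_div, inv_inv, inv_mul_eq_div, mul_comm L]
    exact hR _ h1) x ((unr_mem' st x one_pos).2 (by simpa using hx))
    (by rw [dist_eq_norm, mul_one]; exact lt_of_le_of_lt h2 (lt_add_one D))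
  rw [← unr_reach st x one_pos, one_smul, mul_comm]
  exact this

/-- the static similarity onto the slice `t = -r²` -/
def sSl (r : ℝ) : Tr.Sim := ⟨0, .refl ℝ E, fun _ => r, fun _ => -r ^ 2, univ⟩

lemma sSl_map (r : ℝ) (p : ST) : (sSl r).map p = (r • p.1, -r ^ 2) := by simp [sSl, Tr.Sim.map]

lemma pull_sSl (st : S.Static) {r : ℝ} (hr : 0 < r) : Tr.Pull (sSl r) S.unresc S := by
  refine ⟨⟨isOpen_univ, fun _ _ => hr, fun _ _ => contDiffAt_const, fun _ _ => contDiffAt_const⟩,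
    fun p => ?_, fun p _ => ?_, fun p _ => by simp [sSl, st.V_eq]⟩
  · rw [sSl_map, unr_mem' st _ hr, inv_smul_smul₀ hr.ne', ← mem_sl_iff st p.1 p.2]
    exact (and_iff_right trivial).symm
  · rw [sSl_map, unr_n st _ hr, inv_smul_smul₀ hr.ne']
    exact st.n_eq p.1 p.2

lemma jet_core (hB : BernS) (hA : ReachAS) (k : ℕ) : ∃ C : ℝ, ∀ (S : Mv) (Λ : ℝ) (m : Md), Sh S Λ m →
    ∀ x ∈ S.sl 0, ∀ r σ : ℝ, 0 < r → 0 < σ →
    (∀ (z : E) (a : ℝ), r ≤ a → a ^ 2 < r ^ 2 + σ ^ 2 → z ∈ S.sl 0 → dist (a • z) (r • x) < σ →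
      S.Reach (z, 0) (2 * σ / a)) → S.NJet k (3 * ((3 * r) ^ k * (C / σ ^ k))) (x, 0) := by
  obtain ⟨C, H⟩ := hB k
  refine ⟨C, fun S Λ m hS x hx r σ hr hσ h => ?_⟩
  have st := hS.shr.st
  have fl := hS.cl.fl
  have r2 : 0 < r ^ 2 := by positivity
  have σ2 : 0 < σ ^ 2 := by positivity
  have xm : (r • x, -r ^ 2) ∈ S.unresc.M := (unr_mem' st _ hr).2 (by rwa [inv_smul_smul₀ hr.ne'])
  have := H S.unresc (r • x, -r ^ 2) σ fl.mcf hσ
    (fun p hp hΩ => fl.proper p hp ⟨trivial, by have := hΩ.2.2; rw [mem_Iio]; linarith⟩)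
    (fun q hq => by
      obtain ⟨z, t⟩ := q
      have t1 : -r ^ 2 - σ ^ 2 < t := hq.2.2.1
      have t2 : t ≤ -r ^ 2 := hq.2.2.2
      obtain ⟨a, ha, rfl⟩ : ∃ a : ℝ, 0 < a ∧ t = -a ^ 2 :=
        ⟨√(-t), Real.sqrt_pos.2 (by linarith), by rw [Real.sq_sqrt (by linarith), neg_neg]⟩
      have e : a • a⁻¹ • z = z := smul_inv_smul₀ ha.ne' z
      have h1 := h (a⁻¹ • z) a (by nlinarith) (by linarith) ((unr_mem' st z ha).1 hq.1)
        (by rw [e]; exact hq.2.1)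
      rw [← unr_reach st _ ha, e, mul_div_cancel₀ _ ha.ne'] at h1
      refine (hA _ fl.mcf.1 _ hq.1 _ (by positivity) h1).2.trans ?_
      rw [div_le_div_iff₀ (by positivity) σ2]
      nlinarith)
    (r • x, -r ^ 2) ⟨xm, Metric.mem_ball_self (by positivity), by simp only; nlinarith, le_rfl⟩
  exact (pull_sSl st hr).nJet fl.mcf.1 (p := (x, 0)) hx (by rwa [sSl_map])

/-- uniform reach gives uniform jets -/
theorem jets0_of (hB : BernS) (hA : ReachAS) (hS : Sh S Λ m) {ρ : ℝ} (hρ : 0 < ρ)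
    (h : ∀ x ∈ S.sl 0, S.Reach (x, 0) ρ) (k : ℕ) : ∃ C : ℝ, ∀ x ∈ S.sl 0, S.NJet k C (x, 0) := by
  obtain ⟨C, H⟩ := jet_core hB hA k
  refine ⟨_, fun x hx => H S Λ m hS x hx 1 (ρ / 2) one_pos (by positivity) fun z a h1 _ hz _ => ?_⟩
  refine reach_mono (Tr.n_unit hS.shr.reg hz) (h z hz) ?_
  rw [div_le_iff₀ (by linarith)]
  nlinarith

lemma dir_dist {z e : E} (he : ‖e‖ = 1) {σ : ℝ} (hz : z ≠ 0) (h : dist z e < σ) :
    dist (‖z‖⁻¹ • z) e < 2 * σ := by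
  have z0 : 0 < ‖z‖ := norm_pos_iff.2 hz
  have a : dist (‖z‖⁻¹ • z) z = |1 - ‖z‖| := by
    rw [dist_eq_norm, show ‖z‖⁻¹ • z - z = (‖z‖⁻¹ * (1 - ‖z‖)) • z by
      rw [mul_sub, mul_one, inv_mul_cancel₀ z0.ne', sub_smul, one_smul], norm_smul, norm_mul,
      norm_inv, norm_norm, Real.norm_eq_abs]
    field_simp
  have b : |‖e‖ - ‖z‖| ≤ ‖e - z‖ := abs_norm_sub_norm_le e z
  rw [he, ← dist_eq_norm, dist_comm] at b
  linarith [dist_triangle (‖z‖⁻¹ • z) z e]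

/-- conical reach gives conical jets -/
theorem jets_of (hB : BernS) (hA : ReachAS) (hS : Sh S Λ m) {ρ : ℝ} (hρ : 0 < ρ)
    (h0 : ∀ x ∈ S.sl 0, S.Reach (x, 0) ρ) {c η : ℝ} (R : ℝ) (hc : 0 < c) (hη : 0 < η) (k : ℕ) :
    ∃ C : ℝ, ∀ x ∈ S.sl 0, x ≠ 0 →
      (∀ z ∈ S.sl 0, R < ‖z‖ → dist (‖z‖⁻¹ • z) (‖x‖⁻¹ • x) < η → S.Reach (z, 0) (c * ‖z‖)) →
      S.NJet k (C / ‖x‖ ^ k) (x, 0) := by
  obtain ⟨C, H⟩ := jet_core hB hA k
  obtain ⟨C0, H0⟩ := jets0_of hB hA hS hρ h0 k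
  obtain ⟨σ, σ0, σ1, σ2, σ3, σ4⟩ : ∃ σ : ℝ, 0 < σ ∧ σ ≤ 1 / 2 ∧ σ ≤ c / 4 ∧ σ ≤ η / 2 ∧
      σ ≤ 1 / (4 * (|R| + 1)) :=
    ⟨min (min (1 / 2) (c / 4)) (min (η / 2) (1 / (4 * (|R| + 1)))), by positivity,
      (min_le_left _ _).trans (min_le_left _ _), (min_le_left _ _).trans (min_le_right _ _),
      (min_le_right _ _).trans (min_le_left _ _), (min_le_right _ _).trans (min_le_right _ _)⟩
  refine ⟨max (|C0| * σ⁻¹ ^ k) (3 * (3 ^ k * (C / σ ^ k))), fun x hx x0 h => ?_⟩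
  have xp : 0 < ‖x‖ := norm_pos_iff.2 x0
  have xk : 0 < ‖x‖ ^ k := by positivity
  rcases le_total ‖x‖ σ⁻¹ with h1 | h1
  · refine njet_mono (H0 x hx) ?_
    rw [le_div_iff₀ xk]
    refine le_trans ?_ (le_max_left _ _)
    exact mul_le_mul (le_abs_self _) (by gcongr) xk.le (abs_nonneg _)
  have i0 : 0 < ‖x‖⁻¹ := inv_pos.2 xp
  have i1 : ‖x‖⁻¹ ≤ σ := inv_le_of_inv_le₀ σ0 h1
  have e1 : ‖‖x‖⁻¹ • x‖ = 1 := by rw [norm_smul, norm_inv, norm_norm, inv_mul_cancel₀ xp.ne']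
  refine njet_mono (H S Λ m hS x hx ‖x‖⁻¹ σ i0 σ0 fun z a a1 a2 hz hd => ?_) ?_
  · have a0 : 0 < a := i0.trans_le a1
    have a3 : a < 2 * σ := by nlinarith
    have n1 : 1 / 2 < a * ‖z‖ := by
      have := abs_norm_sub_norm_le (‖x‖⁻¹ • x) (a • z)
      rw [e1, ← dist_eq_norm, dist_comm, norm_smul, Real.norm_of_nonneg a0.le] at this
      linarith [le_abs_self (1 - a * ‖z‖)]
    have zp : 0 < ‖z‖ := by by_contra hn; nlinarith [norm_nonneg z]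
    have d := dir_dist e1 (smul_ne_zero a0.ne' (norm_pos_iff.1 zp)) hd
    rw [norm_smul, Real.norm_of_nonneg a0.le, smul_smul,
      show (a * ‖z‖)⁻¹ * a = ‖z‖⁻¹ by field_simp] at d
    have hR : R < ‖z‖ := by
      rw [le_div_iff₀ (by positivity)] at σ4
      have : |R| + 1 ≤ ‖z‖ := by
        by_contra hn
        have : a * ‖z‖ ≤ 2 * σ * (|R| + 1) := by
          apply mul_le_mul a3.le (not_le.1 hn).le zp.le (by positivity)
        linarith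
      linarith [le_abs_self R]
    refine reach_mono (Tr.n_unit hS.shr.reg hz) (h z hz hR (by linarith)) ?_
    rw [div_le_iff₀ a0]
    nlinarith
  · rw [le_div_iff₀ xk]
    refine le_trans (le_of_eq ?_) (le_max_right _ _)
    rw [mul_pow, inv_pow]
    field_simp

end Crest.Agent.N250.E.Bl

end
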