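import Crest.Agent.N250.E.PJ
import Crest.Prelude.Def_MeanCurvatureFlow

/-!
Row 250, block E (helper94): polar coordinates about an axis, and the two elementary consequences
of empty tangent balls near a round cylinder (the normal is almost radial; one point on a ray).
-/

set_option autoImplicit false

open Set Metric Filter
open scoped ContDiff Topology RealInnerProductSpace

noncomputable section

namespace Crest.Agent.N250.EP

open Crest.GeometryTopology.MCF (E)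

/-- distance of `x` to the axis `ℝ y` (`‖y‖ = 1`) -/
def dz (y x : E) : ℝ := ‖x - ⟪y, x⟫ • y‖

/-- the radial unit vector -/
def om (b : OrthonormalBasis (Fin 3) ℝ E) (θ : ℝ) : E := Real.cos θ • b 1 + Real.sin θ • b 2

/-- polar coordinates about the axis `b 0`: `p = (s, θ)` -/
def pol (b : OrthonormalBasis (Fin 3) ℝ E) (p : ℝ × ℝ) (r : ℝ) : E := p.1 • b 0 + r • om b p.2

variable {b : OrthonormalBasis (Fin 3) ℝ E} {y : E}

theorem dz_nonneg (y x : E) : 0 ≤ dz y x := norm_nonneg _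

theorem dz_sq (hy : ‖y‖ = 1) (x : E) : dz y x ^ 2 = ‖x‖ ^ 2 - ⟪y, x⟫ ^ 2 := by
  rw [dz, norm_sub_sq_real, inner_smul_right, norm_smul, hy, real_inner_comm, Real.norm_eq_abs,
    mul_one, sq_abs]
  ring

theorem dz_le_norm (hy : ‖y‖ = 1) (x : E) : dz y x ≤ ‖x‖ :=
  (pow_le_pow_iff_left₀ (dz_nonneg y x) (norm_nonneg x) two_ne_zero).1
    (by rw [dz_sq hy]; nlinarith [sq_nonneg ⟪y, x⟫])

theorem dz_add_le (y x w : E) : dz y (x + w) ≤ dz y x + dz y w := by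
  have : x + w - ⟪y, x + w⟫ • y = (x - ⟪y, x⟫ • y) + (w - ⟪y, w⟫ • y) := by
    rw [inner_add_right, add_smul]; abel
  rw [dz, this]
  exact norm_add_le _ _

theorem dz_lip (hy : ‖y‖ = 1) (x w : E) : dz y x ≤ dz y w + ‖x - w‖ := by
  have := dz_add_le y w (x - w)
  rw [add_sub_cancel] at this
  linarith [dz_le_norm hy (x - w)]

theorem ax_lip (hy : ‖y‖ = 1) (x w : E) : ⟪y, x⟫ ≤ ⟪y, w⟫ + ‖x - w‖ := by
  have := real_inner_le_norm y (x - w)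
  rw [inner_sub_right, hy] at this
  linarith

theorem continuous_dz (y : E) : Continuous (dz y) := by unfold dz; fun_prop

theorem dz_axial (hy : ‖y‖ = 1) {o : E} (ho : ‖o‖ = 1) (h : ⟪y, o⟫ = 0) (s r : ℝ) :
    ⟪y, s • y + r • o⟫ = s ∧ dz y (s • y + r • o) = |r| := by
  have h1 : ⟪y, s • y + r • o⟫ = s := by
    rw [inner_add_right, inner_smul_right, inner_smul_right, h, real_inner_self_eq_norm_sq, hy]; ring
  refine ⟨h1, ?_⟩
  rw [dz, h1, add_sub_cancel_left, norm_smul, ho, mul_one, Real.norm_eq_abs]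

theorem inner_om (b : OrthonormalBasis (Fin 3) ℝ E) (θ : ℝ) : ⟪b 0, om b θ⟫ = 0 := by
  simp [om, inner_add_right, inner_smul_right, b.inner_eq_ite]

theorem norm_om (b : OrthonormalBasis (Fin 3) ℝ E) (θ : ℝ) : ‖om b θ‖ = 1 := by
  have : ‖om b θ‖ ^ 2 = 1 := by
    rw [om, norm_add_sq_real, norm_smul, norm_smul, inner_smul_left, inner_smul_right,
      b.inner_eq_ite, b.norm_eq_one, b.norm_eq_one]
    simp
  nlinarith [norm_nonneg (om b θ)]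

theorem om_periodic (b : OrthonormalBasis (Fin 3) ℝ E) (θ : ℝ) :
    om b (θ + 2 * Real.pi) = om b θ := by simp [om]

theorem ax_pol (b : OrthonormalBasis (Fin 3) ℝ E) (p : ℝ × ℝ) (r : ℝ) : ⟪b 0, pol b p r⟫ = p.1 :=
  (dz_axial (b.norm_eq_one 0) (norm_om b _) (inner_om b _) _ _).1

theorem dz_pol (b : OrthonormalBasis (Fin 3) ℝ E) (p : ℝ × ℝ) (r : ℝ) : dz (b 0) (pol b p r) = |r| :=
  (dz_axial (b.norm_eq_one 0) (norm_om b _) (inner_om b _) _ _).2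

theorem pol_sub (b : OrthonormalBasis (Fin 3) ℝ E) (p : ℝ × ℝ) (r r' : ℝ) :
    pol b p r - pol b p r' = (r - r') • om b p.2 := by
  rw [pol, pol, sub_smul]; abel

theorem exists_pol (b : OrthonormalBasis (Fin 3) ℝ E) (x : E) :
    ∃ θ, x = pol b (⟪b 0, x⟫, θ) (dz (b 0) x) := by
  set z : ℂ := ⟨⟪b 1, x⟫, ⟪b 2, x⟫⟩ with hz
  have h1 : x = pol b (⟪b 0, x⟫, z.arg) ‖z‖ := by
    have h2 := b.sum_repr' x
    rw [Fin.sum_univ_three] at h2
    rw [pol, om, smul_add, smul_smul, smul_smul, Complex.norm_mul_cos_arg, Complex.norm_mul_sin_arg,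
      ← add_assoc]
    exact h2.symm
  refine ⟨z.arg, ?_⟩
  have h3 := dz_pol b (⟪b 0, x⟫, z.arg) ‖z‖
  rw [← h1, abs_norm] at h3
  rw [h3]
  exact h1

theorem contDiff_pol (b : OrthonormalBasis (Fin 3) ℝ E) :
    ContDiff ℝ ∞ fun q : (ℝ × ℝ) × ℝ => pol b q.1 q.2 := by
  unfold pol om; fun_prop

theorem hasDerivAt_pol (b : OrthonormalBasis (Fin 3) ℝ E) (p : ℝ × ℝ) (r : ℝ) :
    HasDerivAt (pol b p) (om b p.2) r := by
  have := ((hasDerivAt_id r).smul_const (om b p.2)).const_add (p.1 • b 0)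
  rw [one_smul] at this
  exact this

theorem fderiv_pol (b : OrthonormalBasis (Fin 3) ℝ E) (q : (ℝ × ℝ) × ℝ) :
    fderiv ℝ (fun q : (ℝ × ℝ) × ℝ => pol b q.1 q.2) q (0, 1) = om b q.1.2 := by
  have h1 := (((contDiff_pol b).differentiable (by simp)) q).hasFDerivAt
  have h2 : HasDerivAt (fun r : ℝ => ((q.1, r) : (ℝ × ℝ) × ℝ)) (0, 1) q.2 :=
    (hasDerivAt_const _ _).prodMk (hasDerivAt_id _)
  exact (HasFDerivAt.comp_hasDerivAt q.2 (f := fun r : ℝ => ((q.1, r) : (ℝ × ℝ) × ℝ)) h1 h2).unique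
    (hasDerivAt_pol b q.1 q.2)

theorem sqrt2_bds : (7 / 5 : ℝ) < √2 ∧ √2 < (3 / 2 : ℝ) :=
  ⟨Real.lt_sqrt_of_sq_lt (by norm_num), Real.sqrt_lt' (by norm_num) |>.2 (by norm_num)⟩

/-- the cylinder is approximated: radial form -/
theorem approx_of_cyl (b : OrthonormalBasis (Fin 3) ℝ E) {S : Set E} {R δ : ℝ}
    (h : ∀ z, R ≤ ⟪b 0, z⟫ → dz (b 0) z = √2 → ∃ x ∈ S, ‖x - z‖ ≤ δ) (z : E) (hz : R ≤ ⟪b 0, z⟫) :
    ∃ x ∈ S, ‖x - z‖ ≤ |dz (b 0) z - √2| + δ := by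
  obtain ⟨θ, hθ⟩ := exists_pol b z
  obtain ⟨x, hx, h1⟩ := h (pol b (⟪b 0, z⟫, θ) √2) (by rw [ax_pol]; exact hz)
    (by rw [dz_pol, abs_of_nonneg (Real.sqrt_nonneg _)])
  refine ⟨x, hx, ?_⟩
  have h2 : ‖pol b (⟪b 0, z⟫, θ) √2 - z‖ = |dz (b 0) z - √2| := by
    conv_lhs => rw [hθ, ax_pol]
    rw [pol_sub, norm_smul, norm_om, mul_one, Real.norm_eq_abs, abs_sub_comm]
  have h3 := norm_sub_le_norm_sub_add_norm_sub x (pol b (⟪b 0, z⟫, θ) √2) z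
  linarith

theorem radial_arith {t ρ β A w : ℝ} (ht : 0 < t) (ht1 : t ≤ 1 / 12) (ht2 : t ≤ ρ / 2)
    (hβ : β ^ 2 < 1 / 4) (h5 : -(3 * t ^ 2) ≤ w) (h6 : A ≤ (t + 3 * t ^ 2) ^ 2)
    (h3 : ρ ^ 2 ≤ A - 2 * (ρ * (t * (1 - β ^ 2) + w)) + ρ ^ 2) : False := by
  have hρ : 0 < ρ := by linarith
  have h7 : ρ * t < 2 * (ρ * (t * (1 - β ^ 2) + w)) := by
    have : t / 2 < t * (1 - β ^ 2) + w := by nlinarith
    nlinarith
  have h8 : (t + 3 * t ^ 2) ^ 2 ≤ ρ * t := by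
    have : t + 3 * t ^ 2 ≤ 5 / 4 * t := by nlinarith
    have h9 : (t + 3 * t ^ 2) ^ 2 ≤ (5 / 4 * t) ^ 2 := by gcongr
    nlinarith
  linarith

theorem radial_arith2 {t d D T : ℝ} (ht1 : t ≤ 1 / 12) (ht : 0 < t) (hd : |d - √2| ≤ t ^ 2)
    (hD : 0 ≤ D) (hT : T ^ 2 ≤ 1) (h : D ^ 2 = d ^ 2 + t ^ 2 * T ^ 2) : |D - √2| ≤ 2 * t ^ 2 := by
  have h0 := abs_le.1 hd
  have hd1 : 1 ≤ d := by nlinarith [sqrt2_bds.1]
  have h2 : d ≤ D :=
    (pow_le_pow_iff_left₀ (by linarith) hD two_ne_zero).1 (by rw [h]; nlinarith [sq_nonneg (t * T)])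
  have h3 : D ≤ d + t ^ 2 :=
    (pow_le_pow_iff_left₀ hD (by positivity) two_ne_zero).1
      (by rw [h]; nlinarith [sq_nonneg t, sq_nonneg (t ^ 2)])
  rw [abs_le]
  constructor <;> nlinarith [sq_nonneg t]

/-- an empty tangent ball near an approximated cylinder is almost radial -/
theorem radial {S : Set E} {o n : E} (hy : ‖y‖ = 1) (ho : ‖o‖ = 1) (hyo : ⟪y, o⟫ = 0)
    (hn : ‖n‖ = 1) {s d t ρ : ℝ} (ht : 0 < t) (ht1 : t ≤ 1 / 12) (ht2 : t ≤ ρ / 2)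
    (hd : |d - √2| ≤ t ^ 2) (hball : ∀ p ∈ S, ρ ≤ ‖p - (s • y + d • o + ρ • n)‖)
    (hap : ∀ z, s - 1 ≤ ⟪y, z⟫ → ∃ x ∈ S, ‖x - z‖ ≤ |dz y z - √2| + t ^ 2) :
    1 / 2 ≤ |⟪o, n⟫| := by
  by_contra hc
  push Not at hc
  set β := ⟪o, n⟫ with hβ
  have hβ2 : β ^ 2 < 1 / 4 := by rw [← sq_abs]; nlinarith [abs_nonneg β]
  set τ := n - β • o with hτ
  have hτ2 : ‖τ‖ ^ 2 = 1 - β ^ 2 := by
    have := dz_sq ho n
    rwa [dz, hn, one_pow] at this
  have hτ1 : ‖τ‖ ≤ 1 := by nlinarith [norm_nonneg τ, sq_nonneg β]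
  have hτn : ⟪τ, n⟫ = 1 - β ^ 2 := by
    rw [hτ, inner_sub_left, inner_smul_left, real_inner_self_eq_norm_sq, hn, ← hβ]; simp; ring
  have hoτ : ⟪o, τ⟫ = 0 := by
    rw [hτ, inner_sub_right, inner_smul_right, real_inner_self_eq_norm_sq, ho, ← hβ]; ring
  set x := s • y + d • o with hx
  have hsx : ⟪y, x⟫ = s := (dz_axial hy ho hyo s d).1
  have hz1 : s - 1 ≤ ⟪y, x + t • τ⟫ := by
    have := ax_lip hy x (x + t • τ)
    rw [sub_add_cancel_left, norm_neg, norm_smul, Real.norm_eq_abs, abs_of_pos ht] at this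
    nlinarith
  have hz2 : dz y (x + t • τ) ^ 2 = d ^ 2 + t ^ 2 * dz y τ ^ 2 := by
    have e : x + t • τ - ⟪y, x + t • τ⟫ • y = d • o + t • (τ - ⟪y, τ⟫ • y) := by
      rw [inner_add_right, hsx, inner_smul_right, hx]; module
    rw [dz, e, norm_add_sq_real, norm_smul, norm_smul, ho, inner_smul_left, inner_smul_right,
      inner_sub_right, inner_smul_right, hoτ, real_inner_comm y o, hyo, dz]
    simp [mul_pow]
  have hz3 : |dz y (x + t • τ) - √2| ≤ 2 * t ^ 2 :=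
    radial_arith2 ht1 ht hd (dz_nonneg _ _)
      (pow_le_one₀ (dz_nonneg y τ) ((dz_le_norm hy τ).trans hτ1)) hz2
  obtain ⟨x', hx', h1⟩ := hap _ hz1
  set w := x' - (x + t • τ) with hw
  have hw1 : ‖w‖ ≤ 3 * t ^ 2 := by linarith
  have h2 := hball x' hx'
  have e : x' - (x + ρ • n) = (t • τ + w) - ρ • n := by rw [hw]; abel
  have hρ : 0 < ρ := by linarith
  have h3 : ρ ^ 2 ≤ ‖(t • τ + w) - ρ • n‖ ^ 2 := by rw [← e]; gcongr
  rw [norm_sub_sq_real, norm_smul, hn, inner_smul_right, inner_add_left, inner_smul_left, hτn,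
    Real.norm_eq_abs, mul_one, sq_abs] at h3
  have h4 : ‖t • τ + w‖ ≤ t + 3 * t ^ 2 := by
    have := norm_add_le (t • τ) w
    rw [norm_smul, Real.norm_eq_abs, abs_of_pos ht] at this
    nlinarith
  have h5 : -(3 * t ^ 2) ≤ ⟪w, n⟫ := by
    have := abs_real_inner_le_norm w n
    rw [hn] at this
    linarith [(abs_le.1 this).1]
  have h6 : ‖t • τ + w‖ ^ 2 ≤ (t + 3 * t ^ 2) ^ 2 := by gcongr
  simp only [conj_trivial] at h3
  exact radial_arith ht ht1 ht2 hβ2 h5 h6 h3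

/-- both tangent balls empty and a non tangential direction: no second point close by -/
theorem ray_unique {S : Set E} {x o n : E} (ho : ‖o‖ = 1) (hn : ‖n‖ = 1) {ρ t : ℝ}
    (hβ : 1 / 2 ≤ |⟪o, n⟫|) (h1 : ∀ p ∈ S, ρ ≤ ‖p - (x + ρ • n)‖)
    (h2 : ∀ p ∈ S, ρ ≤ ‖p - (x - ρ • n)‖) (ht : |t| < ρ) (hx : x + t • o ∈ S) : t = 0 := by
  by_contra h0
  have ht0 : 0 < |t| := abs_pos.2 h0
  have hρ : 0 < ρ := ht0.trans ht
  have h3 : ρ ^ 2 ≤ ‖t • o - ρ • n‖ ^ 2 := by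
    have := h1 _ hx
    rw [add_sub_add_left_eq_sub] at this
    gcongr
  have h4 : ρ ^ 2 ≤ ‖t • o + ρ • n‖ ^ 2 := by
    have := h2 _ hx
    rw [show x + t • o - (x - ρ • n) = t • o + ρ • n by abel] at this
    gcongr
  rw [norm_sub_sq_real] at h3
  rw [norm_add_sq_real] at h4
  simp only [norm_smul, ho, hn, inner_smul_left, inner_smul_right, Real.norm_eq_abs, mul_one,
    sq_abs, conj_trivial] at h3 h4
  have h5 : |ρ * (t * ⟪o, n⟫)| ≤ t ^ 2 / 2 := abs_le.2 ⟨by linarith, by linarith⟩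
  rw [abs_mul, abs_mul, abs_of_pos hρ, ← sq_abs] at h5
  have h6 : ρ * (|t| * (1 / 2)) ≤ ρ * (|t| * |⟪o, n⟫|) := by gcongr
  nlinarith

end Crest.Agent.N250.EP
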