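import Crest.Agent.N221.Ex.UB

/-!
Row 250, block E (helper94): jets.  `ub_ode` (a first order system with uniformly smooth right hand
side gives uniform jets), `ub_impl` (implicit functions), `impl_loc` (scalar implicit function
theorem), `landau`/`jets_small` (bounded jets and small values give small jets).
-/

set_option autoImplicit false

open Set Metric Filter
open scoped ContDiff Topology

namespace Crest.Agent.N250.EP

open Crest.Agent.N221.Ex

variable {ι X Y : Type} [NormedAddCommGroup X] [NormedSpace ℝ X] [NormedAddCommGroup Y]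
  [NormedSpace ℝ Y]

/-- `D u = Φ (x, u x)` with `Φ` uniformly smooth and `u` bounded: all jets of `u` are bounded. -/
theorem ub_ode {U : ι → Set X} {V : ι → Set (X × Y)} {Φ : ι → X × Y → X →L[ℝ] Y}
    (hΦ : UB V Φ) {u : ι → X → Y} (hU : ∀ i, IsOpen (U i)) (hu : ∀ i, ContDiffOn ℝ ∞ (u i) (U i))
    (hm : ∀ i, ∀ x ∈ U i, (x, u i x) ∈ V i)
    (hd : ∀ i, ∀ x ∈ U i, fderiv ℝ (u i) x = Φ i (x, u i x))
    {M : ℝ} (hb : ∀ i, ∀ x ∈ U i, ‖u i x‖ ≤ M) : UB U u := by
  have key : ∀ k : ℕ, ∃ c : ℝ, 1 ≤ c ∧ ∀ j, 1 ≤ j → j ≤ k → ∀ i, ∀ x ∈ U i,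
      ‖iteratedFDeriv ℝ j (u i) x‖ ≤ c := by
    intro k
    induction k with
    | zero => exact ⟨1, le_rfl, fun j h1 h2 => by omega⟩
    | succ k ih =>
      obtain ⟨D, hD, hb⟩ := ih
      obtain ⟨C, hC, hb'⟩ := hΦ.bdn k
      refine ⟨max D (k.factorial * C * (D + 1) ^ k), hD.trans (le_max_left _ _),
        fun j h1 h2 i x hx => ?_⟩
      rcases Nat.lt_or_ge j (k + 1) with hj | hj
      · exact (hb j h1 (by omega) i x hx).trans (le_max_left _ _)
      obtain rfl : j = k + 1 := by omega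
      refine le_trans ?_ (le_max_right _ _)
      rw [← norm_iteratedFDeriv_fderiv]
      have e : fderiv ℝ (u i) =ᶠ[𝓝 x] Φ i ∘ fun x => (x, u i x) :=
        Filter.eventuallyEq_of_mem ((hU i).mem_nhds hx) fun z hz => hd i z hz
      rw [(e.iteratedFDeriv ℝ k).eq_of_nhds, ← iteratedFDerivWithin_of_isOpen k (hU i) hx]
      refine norm_iteratedFDerivWithin_comp_le (hΦ.sm i) (contDiffOn_fun_id.prodMk (hu i)) (le_infty k)
        (hΦ.op i).uniqueDiffOn (hU i).uniqueDiffOn (fun z hz => hm i z hz) hx (fun j hj => ?_)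
        fun j h1 hj => ?_
      · rw [iteratedFDerivWithin_of_isOpen j (hΦ.op i) (hm i x hx)]
        exact hb' j hj i _ (hm i x hx)
      · rw [iteratedFDerivWithin_of_isOpen j (hU i) hx]
        have ha : ContDiffAt ℝ ∞ (u i) x := (hu i).contDiffAt ((hU i).mem_nhds hx)
        have e2 : (fun x => (x, u i x)) = fun x => ContinuousLinearMap.inl ℝ X Y x +
            ContinuousLinearMap.inr ℝ X Y (u i x) := by
          funext z; simp
        have h3 : ‖iteratedFDeriv ℝ j (fun x => ContinuousLinearMap.inl ℝ X Y x) x‖ ≤ 1 := by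
          obtain ⟨j, rfl⟩ : ∃ j', j = j' + 1 := ⟨j - 1, by omega⟩
          rw [← norm_iteratedFDeriv_fderiv, show fderiv ℝ (fun x => ContinuousLinearMap.inl ℝ X Y x) =
            fun _ => ContinuousLinearMap.inl ℝ X Y from funext fun _ => ContinuousLinearMap.fderiv _]
          rcases eq_or_ne j 0 with rfl | hk
          · rw [norm_iteratedFDeriv_zero]; exact ContinuousLinearMap.norm_inl_le_one ..
          · rw [iteratedFDeriv_const_of_ne hk]; simp
        have h4 : ‖iteratedFDeriv ℝ j (fun x => ContinuousLinearMap.inr ℝ X Y (u i x)) x‖ ≤ D :=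
          ((ContinuousLinearMap.inr ℝ X Y).norm_iteratedFDeriv_comp_left ha (le_infty j)).trans
            (by
              have h5 : ‖ContinuousLinearMap.inr ℝ X Y‖ ≤ 1 := ContinuousLinearMap.norm_inr_le_one ..
              have h6 := hb j h1 hj i x hx
              nlinarith [norm_nonneg (iteratedFDeriv ℝ j (u i) x)])
        rw [e2, fun_iteratedFDeriv_add_apply (g := fun x => ContinuousLinearMap.inr ℝ X Y (u i x))
          ((ContinuousLinearMap.inl ℝ X Y).contDiff.contDiffAt.of_le (le_infty j))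
          ((((ContinuousLinearMap.inr ℝ X Y).contDiff.contDiffAt).comp x ha).of_le (le_infty j))]
        exact ((norm_add_le _ _).trans (by linarith)).trans (le_self_pow₀ (by linarith) (by omega))
  refine ⟨hU, hu, fun k => ?_⟩
  rcases Nat.eq_zero_or_pos k with rfl | hk
  · exact ⟨max M 1, by positivity, fun i x hx => by
      rw [norm_iteratedFDeriv_zero]; exact (hb i x hx).trans (le_max_left _ _)⟩
  · obtain ⟨c, hc, hb⟩ := key k
    exact ⟨c, by linarith, fun i x hx => hb k hk le_rfl i x hx⟩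

/-- the reciprocal of a uniformly smooth family bounded away from zero -/
theorem ub_inv {U : ι → Set X} {f : ι → X → ℝ} (hf : UB U f) {c : ℝ} (hc : 0 < c)
    (h : ∀ i, ∀ x ∈ U i, c ≤ |f i x|) : UB U fun i x => (f i x)⁻¹ := by
  obtain ⟨C, -, hb⟩ := hf.bd 0
  refine UB.comp (V := fun _ => {t : ℝ | c / 2 < |t| ∧ |t| < C + 1}) (ψ := fun _ t => t⁻¹)
    (UB.of_compact (O := {t : ℝ | t ≠ 0}) (K := {t : ℝ | c / 2 ≤ |t|} ∩ closedBall 0 (C + 1))
      isOpen_ne (contDiffOn_inv ℝ)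
      ((isCompact_closedBall 0 (C + 1)).inter_left (isClosed_le continuous_const continuous_abs))
      (fun t ht h0 => ?_) (fun _ => ?_) fun _ t ht => ⟨ht.1.le, ?_⟩) hf fun i x hx => ⟨?_, ?_⟩
  · have := ht.1
    simp only [mem_ofPred_eq] at this
    rw [h0, abs_zero] at this
    linarith
  · exact (isOpen_lt continuous_const continuous_abs).inter (isOpen_lt continuous_abs continuous_const)
  · rw [mem_closedBall_zero_iff]; exact ht.2.le
  · linarith [h i x hx]
  · have := hb i x hx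
    rw [norm_iteratedFDeriv_zero, Real.norm_eq_abs] at this
    linarith

/-- implicit jets: `Ψ (x, u x) = 0`, `Ψ` uniformly smooth, `|∂_r Ψ| ≥ c` on the graph -/
theorem ub_impl {U : ι → Set X} {V : ι → Set (X × ℝ)} {Ψ : ι → X × ℝ → ℝ} (hΨ : UB V Ψ)
    {u : ι → X → ℝ} (hU : ∀ i, IsOpen (U i)) (hu : ∀ i, ContDiffOn ℝ ∞ (u i) (U i))
    (hm : ∀ i, ∀ x ∈ U i, (x, u i x) ∈ V i) (h0 : ∀ i, ∀ x ∈ U i, Ψ i (x, u i x) = 0)
    {c : ℝ} (hc : 0 < c) (hr : ∀ i, ∀ x ∈ U i, c ≤ |fderiv ℝ (Ψ i) (x, u i x) (0, 1)|)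
    {M : ℝ} (hb : ∀ i, ∀ x ∈ U i, ‖u i x‖ ≤ M) : UB U u := by
  have hD := hΨ.fderiv
  have hr0 : UB V fun i q => fderiv ℝ (Ψ i) q (0, 1) :=
    hD.clm (ContinuousLinearMap.apply ℝ ℝ ((0, 1) : X × ℝ))
  let V' : ι → Set (X × ℝ) := fun i => V i ∩ (fun q => fderiv ℝ (Ψ i) q (0, 1)) ⁻¹' {t | c / 2 < |t|}
  have hV' : ∀ i, IsOpen (V' i) := fun i =>
    (hr0.sm i).continuousOn.isOpen_inter_preimage (hΨ.op i) (isOpen_lt continuous_const continuous_abs)
  have h1 : UB V' fun i q => fderiv ℝ (Ψ i) q (0, 1) := hr0.mono id hV' fun i => inter_subset_left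
  have h2 := ub_inv h1 (half_pos hc) fun i q hq => hq.2.le
  have h3 : UB V' fun i q => (fderiv ℝ (Ψ i) q).comp (ContinuousLinearMap.inl ℝ X ℝ) :=
    (hD.mono id hV' fun i => inter_subset_left).clm
      ((ContinuousLinearMap.compL ℝ X (X × ℝ) ℝ).flip (ContinuousLinearMap.inl ℝ X ℝ))
  have h4 := UB.bilin (-(ContinuousLinearMap.lsmul ℝ ℝ : ℝ →L[ℝ] (X →L[ℝ] ℝ) →L[ℝ] X →L[ℝ] ℝ)) h2 h3
  refine ub_ode h4 hU hu (fun i x hx => ⟨hm i x hx, ?_⟩) (fun i x hx => ?_) hb
  · have := hr i x hx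
    simp only [mem_preimage, mem_ofPred_eq]
    linarith
  · have ha : DifferentiableAt ℝ (u i) x :=
      ((hu i).contDiffAt ((hU i).mem_nhds hx)).differentiableAt (by simp)
    have hp : DifferentiableAt ℝ (Ψ i) (x, u i x) := (hΨ.at (hm i x hx)).differentiableAt (by simp)
    have h5 := hp.hasFDerivAt.comp x ((hasFDerivAt_id x).prodMk ha.hasFDerivAt)
    have e : (Ψ i ∘ fun x => (id x, u i x)) =ᶠ[𝓝 x] fun _ => 0 :=
      Filter.eventuallyEq_of_mem ((hU i).mem_nhds hx) fun z hz => h0 i z hz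
    have h6 := (h5.congr_of_eventuallyEq e.symm).unique (hasFDerivAt_const (0 : ℝ) x)
    have hne : fderiv ℝ (Ψ i) (x, u i x) (0, 1) ≠ 0 := fun h => by
      have := hr i x hx
      rw [h, abs_zero] at this
      linarith
    ext v
    have h7 := congrArg (fun L : X →L[ℝ] ℝ => L v) h6
    simp only [ContinuousLinearMap.comp_apply, ContinuousLinearMap.prod_apply,
      ContinuousLinearMap.id_apply, zero_apply] at h7
    have h8 : ((v, fderiv ℝ (u i) x v) : X × ℝ) = (v, 0) + fderiv ℝ (u i) x v • ((0, 1) : X × ℝ) := by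
      simp
    rw [h8, map_add, map_smul, smul_eq_mul] at h7
    simp only [neg_apply, ContinuousLinearMap.lsmul_apply,
      smul_apply, ContinuousLinearMap.comp_apply, ContinuousLinearMap.inl_apply,
      smul_eq_mul]
    field_simp
    linarith

/-- the scalar implicit function theorem -/
theorem impl_loc [CompleteSpace X] {g : X × ℝ → ℝ} {q : X × ℝ} (hg : ContDiffAt ℝ ∞ g q)
    (hr : fderiv ℝ g q (0, 1) ≠ 0) : ∃ u : X → ℝ, ContDiffAt ℝ ∞ u q.1 ∧ u q.1 = q.2 ∧
      (∀ᶠ x in 𝓝 q.1, g (x, u x) = g q) ∧ ∀ᶠ v in 𝓝 q, g v = g q ↔ u v.1 = v.2 := by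
  have hi : (fderiv ℝ g q ∘L ContinuousLinearMap.inr ℝ X ℝ).IsInvertible := by
    refine ⟨ContinuousLinearEquiv.unitsEquivAut ℝ (Units.mk0 _ hr), ?_⟩
    ext
    simp
  exact ⟨_, hg.contDiffAt_implicitFunction (by simp) hi, hg.implicitFunction_apply_self _ hi,
    hg.eventually_apply_implicitFunction _ hi, hg.eventually_apply_eq_iff_implicitFunction _ hi⟩

/-- Landau's inequality on a ball -/
theorem landau {g : X → Y} {p : X} {h a b : ℝ} (hh : 0 < h)
    (hd : ∀ x ∈ closedBall p h, DifferentiableAt ℝ g x) (ha : ∀ x ∈ closedBall p h, ‖g x‖ ≤ a)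
    (hb : ∀ x ∈ closedBall p h, ‖fderiv ℝ g x - fderiv ℝ g p‖ ≤ b) :
    ‖fderiv ℝ g p‖ ≤ 2 * a / h + b := by
  have hp : p ∈ closedBall p h := mem_closedBall_self hh.le
  have ha0 : 0 ≤ a := (norm_nonneg _).trans (ha p hp)
  have hb0 : 0 ≤ b := (norm_nonneg _).trans (hb p hp)
  refine ContinuousLinearMap.opNorm_le_bound _ (by positivity) fun v => ?_
  rcases eq_or_ne v 0 with rfl | hv
  · simp
  have hv0 : 0 < ‖v‖ := norm_pos_iff.2 hv
  set w := (h / ‖v‖) • v with hw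
  have hwn : ‖w‖ = h := by
    rw [hw, norm_smul, Real.norm_eq_abs, abs_of_pos (by positivity)]; field_simp
  have hq : p + w ∈ closedBall p h := by
    rw [mem_closedBall_iff_norm, add_sub_cancel_left, hwn]
  have h1 := (convex_closedBall p h).norm_image_sub_le_of_norm_fderiv_le' hd hb hp hq
  rw [add_sub_cancel_left, hwn] at h1
  have h2 : ‖fderiv ℝ g p w‖ ≤ 2 * a + b * h := by
    have : fderiv ℝ g p w = g (p + w) - g p - (g (p + w) - g p - fderiv ℝ g p w) := by abel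
    rw [this]
    have h3 := norm_sub_le (g (p + w) - g p) (g (p + w) - g p - fderiv ℝ g p w)
    have h4 := norm_sub_le (g (p + w)) (g p)
    linarith [ha _ hq, ha _ hp]
  rw [hw, map_smul, norm_smul, Real.norm_eq_abs, abs_of_pos (by positivity)] at h2
  rw [div_mul_eq_mul_div, div_le_iff₀ hv0] at h2
  rw [← mul_le_mul_iff_right₀ hh]
  calc h * ‖fderiv ℝ g p v‖ ≤ (2 * a + b * h) * ‖v‖ := h2
    _ = h * ((2 * a / h + b) * ‖v‖) := by field_simp

/-- Eventually bounded jets and values that are small at infinity (measured by a Lipschitz `s`)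
give jets that are small at infinity. -/
theorem jets_small {f : ι → X → Y} {s : ι → X → ℝ} {R : ℝ}
    (hs : ∀ i x y, s i x ≤ s i y + ‖x - y‖) (hf : ∀ i x, R < s i x → ContDiffAt ℝ ∞ (f i) x)
    (hj : ∀ k : ℕ, ∃ c R' : ℝ, ∀ i x, R' ≤ s i x → ‖iteratedFDeriv ℝ k (f i) x‖ ≤ c)
    (h0 : ∀ ε > 0, ∃ R', ∀ i x, R' ≤ s i x → ‖f i x‖ ≤ ε) (k : ℕ) :
    ∀ ε > 0, ∃ R', ∀ i x, R' ≤ s i x → ‖iteratedFDeriv ℝ k (f i) x‖ ≤ ε := by
  induction k with
  | zero => simpa using h0
  | succ k ih =>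
    intro ε hε
    obtain ⟨c0, R2, hb0⟩ := hj (k + 2)
    obtain ⟨c, hc, hb⟩ : ∃ c : ℝ, 0 < c ∧ ∀ i x, R2 ≤ s i x → ‖iteratedFDeriv ℝ (k + 2) (f i) x‖ ≤ c :=
      ⟨max c0 1, by positivity, fun i x hx => (hb0 i x hx).trans (le_max_left _ _)⟩
    set h := min 1 (ε / (2 * c)) with hh
    have hh0 : 0 < h := lt_min one_pos (by positivity)
    have hh1 : h ≤ 1 := min_le_left _ _
    have hh2 : c * h ≤ ε / 2 := by
      have : h ≤ ε / (2 * c) := min_le_right _ _
      calc c * h ≤ c * (ε / (2 * c)) := by gcongr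
        _ = ε / 2 := by field_simp
    obtain ⟨R', hR'⟩ := ih (ε * h / 4) (by positivity)
    refine ⟨max R' (max R R2) + 2, fun i p hp => ?_⟩
    have hs' : ∀ x ∈ closedBall p h, max R' (max R R2) < s i x := fun x hx => by
      have h1 := hs i p x
      rw [mem_closedBall_iff_norm'] at hx
      linarith
    simp only [max_lt_iff] at hs'
    have hdk : ∀ j : ℕ, ∀ x ∈ closedBall p h, DifferentiableAt ℝ (iteratedFDeriv ℝ j (f i)) x :=
      fun j x hx => (hf i x (hs' x hx).2.1).differentiableAt_iteratedFDeriv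
        (by exact_mod_cast ENat.natCast_lt_top j)
    rw [← norm_fderiv_iteratedFDeriv]
    refine (landau hh0 (hdk k) (fun x hx => hR' i x (hs' x hx).1.le)
      (b := ε / 2) fun x hx => ?_).trans (le_of_eq (by field_simp; ring))
    have h1 := (convex_closedBall p h).norm_image_sub_le_of_norm_fderiv_le (hdk (k + 1))
      (fun x hx => norm_fderiv_iteratedFDeriv.trans_le (hb i x (hs' x hx).2.2.le))
      (mem_closedBall_self hh0.le) hx
    have h2 : ∀ z, fderiv ℝ (iteratedFDeriv ℝ k (f i)) z =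
        continuousMultilinearCurryLeftEquiv ℝ (fun _ : Fin (k + 1) => X) Y
          (iteratedFDeriv ℝ (k + 1) (f i) z) := fun z => by
      rw [fderiv_iteratedFDeriv]; rfl
    rw [h2, h2, ← dist_eq_norm, LinearIsometryEquiv.dist_map, dist_eq_norm]
    rw [mem_closedBall_iff_norm] at hx
    exact h1.trans ((mul_le_mul_of_nonneg_left hx hc.le).trans hh2)

/-- implicit jets at base points -/
theorem impl_at {V : ι → Set (X × ℝ)} {Ψ : ι → X × ℝ → ℝ} (hΨ : UB V Ψ) {u : ι → X → ℝ}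
    {O : ι → Set X} (hO : ∀ i, IsOpen (O i)) (hu : ∀ i, ContDiffOn ℝ ∞ (u i) (O i)) {x : ι → X}
    (hx : ∀ i, x i ∈ O i) (hm : ∀ i, (x i, u i (x i)) ∈ V i)
    (h0 : ∀ i, ∀ z ∈ O i, (z, u i z) ∈ V i → Ψ i (z, u i z) = 0) {c : ℝ} (hc : 0 < c)
    (hr : ∀ i, c ≤ |fderiv ℝ (Ψ i) (x i, u i (x i)) (0, 1)|) {M : ℝ} (hb : ∀ i, ‖u i (x i)‖ ≤ M)
    (k : ℕ) : ∃ C : ℝ, ∀ i, ‖iteratedFDeriv ℝ k (u i) (x i)‖ ≤ C := by
  let A : ι → Set X := fun i => {z | z ∈ O i ∧ (z, u i z) ∈ V i ∧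
    c / 2 ≤ |fderiv ℝ (Ψ i) (z, u i z) (0, 1)| ∧ ‖u i z‖ ≤ M + 1}
  have hA : ∀ i, ∀ z ∈ interior (A i), z ∈ A i := fun i z hz => interior_subset hz
  obtain ⟨C, -, hC⟩ := (ub_impl (U := fun i => interior (A i)) hΨ (fun _ => isOpen_interior)
    (fun i => (hu i).mono fun z hz => (hA i z hz).1) (fun i z hz => (hA i z hz).2.1)
    (fun i z hz => h0 i z (hA i z hz).1 (hA i z hz).2.1) (half_pos hc)
    (fun i z hz => (hA i z hz).2.2.1) fun i z hz => (hA i z hz).2.2.2).bd k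
  refine ⟨C, fun i => hC i _ (mem_interior_iff_mem_nhds.2 ?_)⟩
  have h1 : ContinuousAt (u i) (x i) := ((hu i).contDiffAt ((hO i).mem_nhds (hx i))).continuousAt
  have h2 : ContinuousAt (fun z => (z, u i z)) (x i) := continuousAt_id.prodMk h1
  have h3 : ContinuousAt (fun z => |fderiv ℝ (Ψ i) (z, u i z) (0, 1)|) (x i) :=
    ((ContinuousAt.comp (f := fun z => (z, u i z)) (hΨ.fderiv.at (hm i)).continuousAt h2).clm_apply
      continuousAt_const).abs
  filter_upwards [(hO i).mem_nhds (hx i), h2.preimage_mem_nhds ((hΨ.op i).mem_nhds (hm i)),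
    h3.eventually (lt_mem_nhds (show c / 2 < _ by linarith [hr i])),
    h1.norm.eventually (gt_mem_nhds (show _ < M + 1 by linarith [hb i]))] with z a1 a2 a3 a4
  exact ⟨a1, a2, a3.le, a4.le⟩

/-- bounded affine maps -/
theorem ub_affine {U : ι → Set X} (ho : ∀ i, IsOpen (U i)) (L : X →L[ℝ] Y) (c : ι → Y) {M : ℝ}
    (hb : ∀ i, ∀ x ∈ U i, ‖L x - c i‖ ≤ M) : UB U fun i x => L x - c i :=
  ⟨ho, fun _ => (L.contDiff.sub contDiff_const).contDiffOn, fun k =>
    ⟨max M (‖L‖ + 1), by positivity, fun i x hx => by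
    rcases k with _ | k
    · rw [norm_iteratedFDeriv_zero]; exact (hb i x hx).trans (le_max_left _ _)
    rw [← norm_iteratedFDeriv_fderiv, show fderiv ℝ (fun x : X => L x - c i) = fun _ => L from
      funext fun _ => (L.hasFDerivAt.sub_const _).fderiv]
    rcases eq_or_ne k 0 with rfl | hk
    · rw [norm_iteratedFDeriv_zero]; exact le_trans (by linarith) (le_max_right _ _)
    · rw [iteratedFDeriv_const_of_ne hk]; simp only [Pi.zero_apply, norm_zero]; positivity⟩⟩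

/-- a function with bounded derivatives of a linear form -/
theorem ub_form {U : ι → Set X} (ho : ∀ i, IsOpen (U i)) (L : X →L[ℝ] ℝ) {g : ℝ → ℝ}
    (hg : ContDiff ℝ ∞ g) (hb : ∀ k t, |iteratedDeriv k g t| ≤ 1) : UB U fun _ x => g (L x) :=
  ⟨ho, fun _ => (hg.comp L.contDiff).contDiffOn, fun k => ⟨‖L‖ ^ k + 1, by positivity, fun _ x _ => by
    have h := L.iteratedFDeriv_comp_right hg x (le_infty k)
    rw [show (fun x => g (L x)) = g ∘ L from rfl, h]
    refine (ContinuousMultilinearMap.norm_compContinuousLinearMap_le _ _).trans ?_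
    rw [norm_iteratedFDeriv_eq_norm_iteratedDeriv, Real.norm_eq_abs, Finset.prod_const,
      Finset.card_univ, Fintype.card_fin]
    nlinarith [hb k (L x), pow_nonneg (norm_nonneg L) k]⟩⟩

/-- a diagonal choice along a filter -/
theorem diag {α : Type} {l : Filter α} [l.NeBot] {P : ℕ → α → Prop} (h : ∀ k, ∀ᶠ a in l, P k a) :
    ∃ a : ℕ → α, ∀ m, ∀ k ≤ m, P k (a m) := by
  have : ∀ m : ℕ, ∃ a, ∀ k ∈ Finset.range (m + 1), P k a := fun m =>
    ((eventually_all_finset _).2 fun k _ => h k).exists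
  choose a ha using this
  exact ⟨a, fun m k hk => ha m k (Finset.mem_range.2 (by omega))⟩

/-- the `k`-th jets are bounded from the index `k` on: uniformly smooth -/
theorem ub_diag {O K B : Set X} {f : ℕ → X → Y} (hO : IsOpen O) (hf : ∀ m, ContDiffOn ℝ ∞ (f m) O)
    (hK : IsCompact K) (hKO : K ⊆ O) (hB : IsOpen B) (hBK : B ⊆ K)
    (h : ∀ k : ℕ, ∃ c : ℝ, ∀ m, k ≤ m → ∀ x ∈ B, ‖iteratedFDeriv ℝ k (f m) x‖ ≤ c) :
    UB (fun _ => B) f :=
  ⟨fun _ => hB, fun m => (hf m).mono (hBK.trans hKO), fun k => by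
    obtain ⟨c, hc⟩ := h k
    have h1 : ∀ m, ∃ c : ℝ, 0 < c ∧ ∀ x ∈ B, ‖iteratedFDeriv ℝ k (f m) x‖ ≤ c := fun m => by
      obtain ⟨c, h0, hc⟩ := (UB.of_compact (U := fun _ : Unit => B) hO (hf m) hK hKO (fun _ => hB)
        fun _ => hBK).bd k
      exact ⟨c, h0, hc ()⟩
    choose c' h0 hc' using h1
    have h2 : 0 ≤ ∑ m ∈ Finset.range k, c' m := Finset.sum_nonneg fun m _ => (h0 m).le
    refine ⟨max c 1 + ∑ m ∈ Finset.range k, c' m, by positivity, fun m x hx => ?_⟩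
    rcases le_or_gt k m with hm | hm
    · linarith [hc m hm x hx, le_max_left c 1]
    · have := Finset.single_le_sum (fun j _ => (h0 j).le) (Finset.mem_range.2 hm)
      linarith [hc' m x hx, le_max_right c 1]⟩

end Crest.Agent.N250.EP
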