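import Crest.Agent.N250.E.Pol

/-! Row 250, block E (helper94): E5 in the forms consumed by the assembly. -/

set_option autoImplicit false

open Set Metric Filter
open scoped ContDiff Topology RealInnerProductSpace

noncomputable section

namespace Crest.Agent.N250.EP

open Crest.GeometryTopology.MCF (E)

variable {y : E} {S : Set E}

/-- compact sets missing the cylinder miss the far translates of `S` -/
theorem cyl_far (hy : ‖y‖ = 1) (h : CylLim y S) {K : Set E} (hK : IsCompact K)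
    (hd : Disjoint K (cyl y)) : ∃ Λ : ℝ, ∀ lam ≥ Λ, ∀ x ∈ K, x + lam • y ∉ S := by
  rcases K.eq_empty_or_nonempty with rfl | hne
  · exact ⟨0, fun _ _ _ hx => hx.elim⟩
  obtain ⟨z, hz, hm⟩ := hK.exists_isMinOn hne (f := fun x => |dz y x - √2|)
    ((continuous_dz y).sub continuous_const).abs.continuousOn
  have h0 : 0 < |dz y z - √2| := abs_pos.2 (sub_ne_zero.2 (disjoint_left.1 hd hz))
  obtain ⟨D, hD⟩ := hK.isBounded.exists_norm_le
  obtain ⟨R, hR⟩ := cyl_near hy h D (half_pos h0)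
  refine ⟨R + D, fun lam hl x hx hS => ?_⟩
  have e : dz y (x + lam • y) = dz y x := by rw [← dz_proj hy _ lam, add_sub_cancel_right]
  have h1 := hR _ hS (by
    have := abs_real_inner_le_norm y x
    rw [hy, one_mul] at this
    rw [inner_add_right, inner_smul_right, real_inner_self_eq_norm_sq, hy]
    linarith [(abs_le.1 this).1, hD x hx]) (by rw [e]; exact (dz_le_norm hy x).trans (hD x hx))
  rw [e] at h1
  have h2 : |dz y z - √2| ≤ |dz y x - √2| := hm hx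
  linarith

/-- points of the cylinder are approximated by the far translates of `S` -/
theorem cyl_pt (hy : ‖y‖ = 1) (h : CylLim y S) {p : E} (hp : p ∈ cyl y) {η : ℝ} (hη : 0 < η) :
    ∃ Λ : ℝ, ∀ lam ≥ Λ, ∃ x, dist x p < η ∧ x + lam • y ∈ S := by
  obtain ⟨R, hR⟩ := cyl_approx hy h (half_pos hη)
  refine ⟨R - ⟪y, p⟫, fun lam hl => ?_⟩
  obtain ⟨x, hx, -, h1⟩ := hR (p + lam • y) (by
    rw [inner_add_right, inner_smul_right, real_inner_self_eq_norm_sq, hy]; linarith)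
  have e : dz y (p + lam • y) = √2 := by rw [← dz_proj hy _ lam, add_sub_cancel_right]; exact hp
  refine ⟨x - lam • y, ?_, by rwa [sub_add_cancel]⟩
  rw [e, sub_self, abs_zero, zero_add] at h1
  rw [dist_eq_norm, show x - lam • y - p = x - (p + lam • y) by abel]
  linarith

/-- **E5**, fields as in `Ends` -/
theorem tube_of (Q : E ≃ₗᵢ[ℝ] E) (S : Set E) (h : CylLim (Q (ee 0)) S) :
    ∃ (R : ℝ) (r : ℝ × ℝ → ℝ), ContDiffOn ℝ ∞ r {q | R < q.1} ∧
      (∀ s θ, r (s, θ + 2 * Real.pi) = r (s, θ)) ∧ (∀ q : ℝ × ℝ, R < q.1 → 1 < r q ∧ r q < 2) ∧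
      (∀ (k : ℕ) (δ : ℝ), 0 < δ → ∃ s₀ : ℝ, ∀ q : ℝ × ℝ, s₀ < q.1 →
        ‖iteratedFDeriv ℝ k (fun q => r q - √2) q‖ ≤ δ) ∧
      ∀ x : E, R < x 0 → √(x 1 ^ 2 + x 2 ^ 2) ≤ 2 →
        (Q x ∈ S ↔ ∃ θ, x = cylP (x 0) (r (x 0, θ)) θ) := by
  obtain ⟨R, r, h⟩ := polar (b := bQ Q) (S := S) (by rwa [bQ_apply])
  refine ⟨R, r, h.sm, h.per, h.rng, fun k δ hδ => ?_, fun x hR h1 => ⟨fun hS => ?_, ?_⟩⟩
  · obtain ⟨R', hR'⟩ := h.lim k δ hδ
    exact ⟨R', fun q hq => hR' q hq.le⟩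
  · obtain ⟨θ, hθ⟩ := exists_pol (bQ Q) (Q x)
    rw [bQ_apply, ax_Q] at hθ
    have h2 := (h.mem (x 0, θ) hR _ ⟨dz_nonneg _ _, by rwa [dz_Q]⟩).1 (hθ ▸ hS)
    rw [h2, pol_bQ] at hθ
    exact ⟨θ, Q.injective hθ⟩
  · rintro ⟨θ, hθ⟩
    have h1 := h.rng (x 0, θ) hR
    rw [hθ, ← pol_bQ]
    exact (h.mem (x 0, θ) hR _ ⟨by linarith [h1.1], h1.2.le⟩).2 rfl

/-- the cylinder in the form of `Cls.cls` -/
theorem cyl_eq (hy : ‖y‖ = 1) : cyl y = {x | ‖x‖ ^ 2 - ⟪x, y⟫ ^ 2 = 2} := by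
  ext x
  rw [cyl, mem_ofPred_eq, mem_ofPred_eq, real_inner_comm, ← dz_sq hy]
  constructor
  · intro h; rw [h, Real.sq_sqrt (by norm_num)]
  · intro h; rw [← h, Real.sqrt_sq (dz_nonneg _ _)]

end Crest.Agent.N250.EP
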