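import Crest.Agent.N250.E.Law
import Crest.Agent.N250.E.Pol2

/-! Row 250, block E (helper28): the leaves of `EStmt`. -/

set_option autoImplicit false
open MeasureTheory Set Filter Topology
open scoped ContDiff RealInnerProductSpace
open Crest.GeometryTopology.MCF

noncomputable section

namespace Crest.Agent.N250.E

/-- a regular (conical or empty) direction -/
def RegDir (S : Mv) (y : E) : Prop :=
  ∃ δ c R : ℝ, 0 < δ ∧ 0 < c ∧ ∀ x ∈ S.sl 0, R < ‖x‖ → dist (‖x‖⁻¹ • x) y < δ →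
    S.Reach (x, 0) (c * ‖x‖)

/-- E1–E3 (helper85) -/
def DichS : Prop := ∀ (S : Mv) (Λ : ℝ) (m : Md), Sh S Λ m → ∀ y : E, ‖y‖ = 1 →
  RegDir S y ∨ EP.CylLim y (S.sl 0)

/-- the density at `(y, 0)` exists (helper85) -/
def ThS : Prop := ∀ (S : Mv) (Λ : ℝ) (m : Md), Sh S Λ m → ∀ y : E,
  ∃ θ : ℝ, Tendsto (fun lam : ℝ => gA (S.sl 0) (lam • y) 1) atTop (𝓝 θ)

/-- Kuratowski convergence to the cylinder (helper94) -/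
def KurS : Prop := ∀ (y : E) (A : Set E), ‖y‖ = 1 → EP.CylLim y A →
  (∀ K : Set E, IsCompact K → Disjoint K (EP.cyl y) →
    ∃ Λ : ℝ, ∀ lam, Λ ≤ lam → ∀ x ∈ K, x + lam • y ∉ A) ∧
  ∀ p ∈ EP.cyl y, ∀ η : ℝ, 0 < η → ∃ Λ : ℝ, ∀ lam, Λ ≤ lam → ∃ x, dist x p < η ∧ x + lam • y ∈ A

/-- E5, the polar graph (helper94) -/
def TubeS : Prop := ∀ (Q : E ≃ₗᵢ[ℝ] E) (A : Set E), EP.CylLim (Q (ee 0)) A →
  ∃ (R : ℝ) (r : ℝ × ℝ → ℝ), ContDiffOn ℝ ∞ r {q | R < q.1} ∧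
    (∀ s θ, r (s, θ + 2 * Real.pi) = r (s, θ)) ∧ (∀ q : ℝ × ℝ, R < q.1 → 1 < r q ∧ r q < 2) ∧
    (∀ (k : ℕ) (δ : ℝ), 0 < δ → ∃ s₀ : ℝ, ∀ q : ℝ × ℝ, s₀ < q.1 →
      ‖iteratedFDeriv ℝ k (fun q => r q - √2) q‖ ≤ δ) ∧
    ∀ x : E, R < x 0 → √(x 1 ^ 2 + x 2 ^ 2) ≤ 2 →
      (Q x ∈ A ↔ ∃ θ, x = cylP (x 0) (r (x 0, θ)) θ)

theorem kurS : KurS := fun _ _ hy h =>
  ⟨fun _ hK hd => EP.cyl_far hy h hK hd, fun _ hp _ hη => EP.cyl_pt hy h hp hη⟩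

theorem tubeS : TubeS := EP.tube_of

/-- jets of the normal of `S` from those of `√(-t) S` (helper52) -/
def UnrJetS : Prop := ∀ S : Mv, S.IsShr → ∀ m : ℝ, 0 < m → ∀ x ∈ S.sl 0, ∀ (k : ℕ) (C : ℝ),
  S.unresc.NJet k C (m • x, -m ^ 2) → S.NJet k (C * m ^ k) (x, 0)

end Crest.Agent.N250.E

end
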